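import Vale.Agent.P370.H305.Iface

/-!
Choice of the exponents of the parameters (`Expo`) and the real-arithmetic inequalities of the
second half, with one constant `c` for all the blocks.
-/

namespace Vale.Agent.P370.H207

open Vale.Agent.P370.H305

/-- The inequalities between the parameters `n = B^kn`, `s = B^(-ks)`, `S = B^kS`, `t = B^kt`,
`Z = B^kZ`, for the constant `c`. -/
structure Budget (c : ℕ) (K : Expo) (B : ℝ) : Prop where
  /-- the shell is large -/
  shell : B ^ c ≤ B ^ K.kn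
  /-- the Mott block -/
  mott : ∀ δ Δ κ τ k0 : ℝ, 1 / (B ^ c * (B ^ K.kn) ^ 2) ≤ δ →
    0 ≤ Δ → Δ ≤ B ^ c * (B ^ K.kn) ^ (-(13 / 7) : ℝ) →
    0 ≤ κ → κ ≤ B ^ c * (B ^ K.kn) ^ (-(13 / 6) : ℝ) →
    0 ≤ τ → τ ^ 2 ≤ B ^ c * Δ * (1 / B ^ K.ks) → 0 ≤ k0 → k0 ≤ B ^ c * (1 / B ^ K.ks) →
    B ^ 2 * τ ≤ δ / 2 ∧
      2 * (B ^ 2 * τ / δ) * k0 + k0 ^ 2 / δ + B ^ 4 * κ ≤ (1 / B ^ K.ks) / B ^ c
  /-- the selection strength -/
  sel : (B * B ^ K.kn * B ^ K.ks) ^ c ≤ B ^ K.kS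
  /-- the lattice -/
  latt : (B * B ^ K.kn * B ^ K.ks * B ^ K.kS) ^ c ≤ √(B ^ K.kt)
  /-- the heavy charge -/
  heavy : (B * B ^ K.kn * B ^ K.ks * B ^ K.kS * B ^ K.kt) ^ c ≤ B ^ K.kZ
  /-- exponentially small terms -/
  tiny : Real.exp (-(B ^ K.kn / B ^ (c + 8))) ≤
    1 / (B * B ^ K.kn * B ^ K.ks * B ^ K.kS * B ^ K.kt * B ^ K.kZ) ^ c

/-- affine bounds -/
def Lin (f : ℕ → ℕ) : Prop := ∃ A : ℕ, ∀ k, f k ≤ A * (k + 1)

theorem Lin.const (a : ℕ) : Lin fun _ => a := ⟨a, fun k => Nat.le_mul_of_pos_right _ (by omega)⟩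

theorem Lin.id : Lin fun k => k := ⟨1, fun k => by simp only; omega⟩

theorem Lin.add {f g : ℕ → ℕ} (hf : Lin f) (hg : Lin g) : Lin fun k => f k + g k := by
  obtain ⟨A, hA⟩ := hf
  obtain ⟨C, hC⟩ := hg
  exact ⟨A + C, fun k => by have := hA k; have := hC k; nlinarith⟩

theorem Lin.mul {f : ℕ → ℕ} (hf : Lin f) (a : ℕ) : Lin fun k => a * f k := by
  obtain ⟨A, hA⟩ := hf
  exact ⟨a * A, fun k => by
    have := Nat.mul_le_mul_left a (hA k)
    rw [Nat.mul_assoc]
    exact this⟩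

theorem Lin.exists {f : ℕ → ℕ} (hf : Lin f) (k₀ c : ℕ) :
    ∃ k, k₀ ≤ k ∧ c ≤ k ∧ ∀ B : ℝ, 2 ≤ B → (f k : ℝ) * B ^ (c + 9) ≤ B ^ (42 * k) := by
  obtain ⟨A, hA⟩ := hf
  refine ⟨k₀ + c + A + 9, by omega, by omega, fun B hB => ?_⟩
  set k := k₀ + c + A + 9 with hk
  have hB1 : 1 ≤ B := by linarith
  have h1 : (f k : ℝ) ≤ 2 ^ (2 * k) := by
    have h2 : A ≤ 2 ^ k := (Nat.lt_two_pow_self.le).trans
      (Nat.pow_le_pow_right (by norm_num) (by omega))
    have h3 : k + 1 ≤ 2 ^ k := Nat.lt_two_pow_self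
    have h4 : f k ≤ 2 ^ (2 * k) := by
      calc f k ≤ A * (k + 1) := hA k
        _ ≤ 2 ^ k * 2 ^ k := Nat.mul_le_mul h2 h3
        _ = 2 ^ (2 * k) := by rw [two_mul k, pow_add 2 k k]
    exact_mod_cast h4
  calc (f k : ℝ) * B ^ (c + 9) ≤ B ^ (2 * k) * B ^ (c + 9) := by
        gcongr
        exact h1.trans (by gcongr)
    _ = B ^ (2 * k + (c + 9)) := (pow_add B (2 * k) (c + 9)).symm
    _ ≤ B ^ (42 * k) := pow_le_pow_right₀ hB1 (by omega)

theorem bp3 (B : ℝ) (a b c : ℕ) : (B * B ^ a * B ^ b) ^ c = B ^ (c * (1 + a + b)) := by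
  rw [mul_comm c, pow_mul, pow_add, pow_add, pow_one]

theorem bp4 (B : ℝ) (a b d c : ℕ) :
    (B * B ^ a * B ^ b * B ^ d) ^ c = B ^ (c * (1 + a + b + d)) := by
  rw [mul_comm c, pow_mul, pow_add, pow_add, pow_add, pow_one]

theorem bp5 (B : ℝ) (a b d e c : ℕ) :
    (B * B ^ a * B ^ b * B ^ d * B ^ e) ^ c = B ^ (c * (1 + a + b + d + e)) := by
  rw [mul_comm c, pow_mul, pow_add, pow_add, pow_add, pow_add, pow_one]

theorem bp6 (B : ℝ) (a b d e f c : ℕ) :
    (B * B ^ a * B ^ b * B ^ d * B ^ e * B ^ f) ^ c = B ^ (c * (1 + a + b + d + e + f)) := by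
  rw [mul_comm c, pow_mul, pow_add, pow_add, pow_add, pow_add, pow_add, pow_one]

/-- **The budget closes.** -/
theorem budget (c k₀ : ℕ) : ∃ K : Expo, k₀ ≤ K.kn ∧ K.ks + 1 ≤ K.kZ ∧
    ∀ B : ℝ, 2 ≤ B → Budget c K B := by
  -- exponents as functions of `k`
  set ks : ℕ → ℕ := fun k => 90 * k + (8 * c + 10) with hks
  set kS : ℕ → ℕ := fun k => c * (1 + 42 * k + ks k) with hkS
  set kt : ℕ → ℕ := fun k => 2 * (c * (1 + 42 * k + ks k + kS k)) with hkt
  set kZ : ℕ → ℕ := fun k => c * (1 + 42 * k + ks k + kS k + kt k) + (ks k + 1) with hkZ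
  set P : ℕ → ℕ := fun k => c * (1 + 42 * k + ks k + kS k + kt k + kZ k) with hP
  have l1 : Lin fun k => 1 + 42 * k := (Lin.const 1).add (Lin.id.mul 42)
  have ls : Lin ks := (Lin.id.mul 90).add (Lin.const _)
  have lS : Lin kS := (l1.add ls).mul c
  have lt : Lin kt := (((l1.add ls).add lS).mul c).mul 2
  have lZ : Lin kZ := ((((l1.add ls).add lS).add lt).mul c).add (ls.add (Lin.const 1))
  have lP : Lin P := (((((l1.add ls).add lS).add lt).add lZ)).mul c
  obtain ⟨k, hk0, hkc, hk⟩ := lP.exists (k₀ + 10 * c + 16) c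
  refine ⟨⟨42 * k, ks k, kS k, kt k, kZ k⟩, by simp only; omega, by simp only [hkZ]; omega,
    fun B hB => ?_⟩
  have hB0 : 0 < B := by linarith
  have hB1 : 1 ≤ B := by linarith
  have pw : ∀ a b : ℕ, a ≤ b → B ^ a ≤ B ^ b := fun a b h => pow_le_pow_right₀ hB1 h
  refine ⟨?_, ?_, ?_, ?_, ?_, ?_⟩
  · simp only
    exact pw _ _ (by omega)
  · intro δ Δ κ τ k0 hδ hΔ0 hΔ hκ0 hκ hτ0 hτ hk00 hk0'
    simp only at hδ hΔ hκ hτ hk0' ⊢
    have e7 : (B ^ (42 * k)) ^ (-(13 / 7) : ℝ) = 1 / B ^ (78 * k) := by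
      rw [Real.rpow_neg (by positivity), ← Real.rpow_natCast B (42 * k), ← Real.rpow_mul hB0.le,
        ← Real.rpow_natCast B (78 * k), one_div]
      congr 2
      push_cast
      ring
    have e6 : (B ^ (42 * k)) ^ (-(13 / 6) : ℝ) = 1 / B ^ (91 * k) := by
      rw [Real.rpow_neg (by positivity), ← Real.rpow_natCast B (42 * k), ← Real.rpow_mul hB0.le,
        ← Real.rpow_natCast B (91 * k), one_div]
      congr 2
      push_cast
      ring
    rw [e7] at hΔ
    rw [e6] at hκ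
    have hδ' : 1 / B ^ (c + 84 * k) ≤ δ := by
      refine le_trans (le_of_eq ?_) hδ
      rw [← pow_mul, ← pow_add]
      congr 2
      ring
    have hδ0 : 0 < δ := lt_of_lt_of_le (by positivity) hδ'
    set s : ℝ := 1 / B ^ ks k with hs
    have hs0 : 0 < s := by positivity
    -- `τ ≤ B^(-(3c+5+84k))`
    have hτ' : τ ≤ 1 / B ^ (3 * c + 5 + 84 * k) := by
      have h1 : τ ^ 2 ≤ (1 / B ^ (3 * c + 5 + 84 * k)) ^ 2 := by
        calc τ ^ 2 ≤ B ^ c * Δ * s := hτ
          _ ≤ B ^ c * (B ^ c * (1 / B ^ (78 * k))) * s := by gcongr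
          _ = (1 / B ^ (3 * c + 5 + 84 * k)) ^ 2 := by
              rw [hs, hks, div_pow, one_pow, ← pow_mul]
              simp only
              rw [show (3 * c + 5 + 84 * k) * 2 = 78 * k + (90 * k + (6 * c + 10)) by ring,
                show 90 * k + (8 * c + 10) = (c + c) + (90 * k + (6 * c + 10)) by ring,
                pow_add B (c + c), pow_add B c c, pow_add B (78 * k)]
              field_simp
      exact (pow_le_pow_iff_left₀ hτ0 (by positivity) (by norm_num)).1 h1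
    have hr : B ^ 2 * τ / δ ≤ 1 / B ^ (2 * c + 3) := by
      rw [div_le_iff₀ hδ0]
      calc B ^ 2 * τ ≤ B ^ 2 * (1 / B ^ (3 * c + 5 + 84 * k)) := by gcongr
        _ = 1 / B ^ (2 * c + 3) * (1 / B ^ (c + 84 * k)) := by
            rw [show 3 * c + 5 + 84 * k = 2 + ((2 * c + 3) + (c + 84 * k)) by ring, pow_add B 2,
              pow_add B (2 * c + 3)]
            field_simp
        _ ≤ 1 / B ^ (2 * c + 3) * δ := by gcongr
    have hB8 : (8 : ℝ) ≤ B ^ 3 := by
      calc (8 : ℝ) = 2 ^ 3 := by norm_num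
        _ ≤ B ^ 3 := by gcongr
    have hB4 : (4 : ℝ) ≤ B ^ 2 := by
      calc (4 : ℝ) = 2 ^ 2 := by norm_num
        _ ≤ B ^ 2 := by gcongr
    constructor
    · have h1 : B ^ 2 * τ / δ ≤ 1 / 2 := by
        refine hr.trans (one_div_le_one_div_of_le (by norm_num) ?_)
        calc (2 : ℝ) ≤ 8 := by norm_num
          _ ≤ B ^ 3 := hB8
          _ ≤ B ^ (2 * c + 3) := pw _ _ (by omega)
      rw [div_le_iff₀ hδ0] at h1
      linarith
    · -- the three terms
      have t1 : 2 * (B ^ 2 * τ / δ) * k0 ≤ (1 / B ^ (c + 2)) * s := by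
        have h1 : 2 * (B ^ 2 * τ / δ) ≤ 1 / B ^ (2 * c + 2) := by
          have h2 : 2 * (1 / B ^ (2 * c + 3)) ≤ 1 / B ^ (2 * c + 2) := by
            rw [show 2 * c + 3 = (2 * c + 2) + 1 by ring, pow_add, pow_one, mul_one_div,
              div_le_div_iff₀ (by positivity) (by positivity), one_mul]
            nlinarith [pow_pos hB0 (2 * c + 2)]
          linarith
        calc 2 * (B ^ 2 * τ / δ) * k0 ≤ (1 / B ^ (2 * c + 2)) * (B ^ c * s) := by gcongr
          _ = (1 / B ^ (c + 2)) * s := by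
              rw [show 2 * c + 2 = c + (c + 2) by ring, pow_add B c]
              field_simp
      have t2 : k0 ^ 2 / δ ≤ (1 / B ^ (c + 2)) * s := by
        rw [div_le_iff₀ hδ0]
        calc k0 ^ 2 ≤ (B ^ c * s) ^ 2 := by gcongr
          _ = (B ^ (c + c) * s) * s := by rw [pow_add]; ring
          _ ≤ (1 / B ^ ((c + 2) + (c + 84 * k))) * s := by
              gcongr
              rw [hs, hks]
              simp only
              rw [mul_one_div, div_le_div_iff₀ (by positivity) (by positivity), one_mul, ← pow_add]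
              exact pw _ _ (by omega)
          _ = (1 / B ^ (c + 2)) * s * (1 / B ^ (c + 84 * k)) := by
              rw [pow_add B (c + 2)]
              field_simp
          _ ≤ (1 / B ^ (c + 2)) * s * δ := by gcongr
      have t3 : B ^ 4 * κ ≤ (1 / B ^ (c + 2)) * s := by
        calc B ^ 4 * κ ≤ B ^ 4 * (B ^ c * (1 / B ^ (91 * k))) := by gcongr
          _ = B ^ (4 + c) / B ^ (91 * k) := by rw [pow_add]; ring
          _ ≤ 1 / B ^ ((c + 2) + ks k) := by
              rw [div_le_div_iff₀ (by positivity) (by positivity), one_mul, ← pow_add]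
              exact pw _ _ (by simp only [hks]; omega)
          _ = (1 / B ^ (c + 2)) * s := by
              rw [hs, pow_add B (c + 2)]
              field_simp
      calc 2 * (B ^ 2 * τ / δ) * k0 + k0 ^ 2 / δ + B ^ 4 * κ ≤ 3 * ((1 / B ^ (c + 2)) * s) := by
            linarith
        _ = 3 / B ^ 2 * (s / B ^ c) := by
            rw [pow_add]
            field_simp
        _ ≤ 1 * (s / B ^ c) := by
            gcongr
            rw [div_le_one (by positivity)]
            linarith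
        _ = s / B ^ c := one_mul _
  · exact le_of_eq (bp3 B (42 * k) (ks k) c)
  · refine le_of_eq ((bp4 B (42 * k) (ks k) (kS k) c).trans ?_)
    have h1 : B ^ kt k = (B ^ (c * (1 + 42 * k + ks k + kS k))) ^ 2 := by
      rw [← pow_mul]
      congr 1
      rw [hkt]
      ring
    change _ = √(B ^ kt k)
    rw [h1, Real.sqrt_sq (by positivity)]
  · refine (bp5 B (42 * k) (ks k) (kS k) (kt k) c).le.trans ?_
    exact pw _ _ (by simp only [hkZ]; omega)
  · have h1 : (B * B ^ (42 * k) * B ^ ks k * B ^ kS k * B ^ kt k * B ^ kZ k) ^ c = B ^ P k :=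
      bp6 B (42 * k) (ks k) (kS k) (kt k) (kZ k) c
    change Real.exp (-(B ^ (42 * k) / B ^ (c + 8))) ≤
      1 / (B * B ^ (42 * k) * B ^ ks k * B ^ kS k * B ^ kt k * B ^ kZ k) ^ c
    rw [h1, one_div, ← Real.exp_log (by positivity : 0 < (B ^ P k)⁻¹)]
    apply Real.exp_le_exp.2
    rw [Real.log_inv, Real.log_pow]
    apply neg_le_neg
    rw [le_div_iff₀ (by positivity)]
    have h2 : Real.log B ≤ B := (Real.log_le_sub_one_of_pos hB0).trans (by linarith)
    calc (P k : ℝ) * Real.log B * B ^ (c + 8) ≤ (P k : ℝ) * B * B ^ (c + 8) := by gcongr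
      _ = (P k : ℝ) * B ^ (c + 9) := by rw [pow_succ B (c + 8)]; ring
      _ ≤ B ^ (42 * k) := hk B hB

/-- Every constant is at most a fixed power of `B`. -/
theorem exists_pow_ge (C : ℝ) : ∃ a : ℕ, ∀ B : ℝ, 2 ≤ B → C ≤ B ^ a := by
  obtain ⟨a, ha⟩ := pow_unbounded_of_one_lt C (by norm_num : (1 : ℝ) < 2)
  exact ⟨a, fun B hB => ha.le.trans (by gcongr)⟩

namespace Budget

variable {c : ℕ} {K : Expo} {B : ℝ}

/-- exponentially small terms, second form -/
theorem tiny_exp (h : Budget c K B) (hB : 2 ≤ B) (hn : 2 ≤ B ^ K.kn) :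
    Real.exp (-((B ^ K.kn - 1) / (8 * B ^ 4))) ≤
      1 / (B * B ^ K.kn * B ^ K.ks * B ^ K.kS * B ^ K.kt * B ^ K.kZ) ^ c := by
  refine le_trans (Real.exp_le_exp.2 (neg_le_neg ?_)) h.tiny
  have hB1 : 1 ≤ B := by linarith
  have h16 : (16 : ℝ) ≤ B ^ 4 := by
    calc (16 : ℝ) = 2 ^ 4 := by norm_num
      _ ≤ B ^ 4 := by gcongr
  calc B ^ K.kn / B ^ (c + 8) ≤ B ^ K.kn / B ^ 8 := by
        have h8 : B ^ 8 ≤ B ^ (c + 8) := pow_le_pow_right₀ hB1 (by omega)
        gcongr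
    _ ≤ B ^ K.kn / (16 * B ^ 4) := by
        gcongr
        calc 16 * B ^ 4 ≤ B ^ 4 * B ^ 4 := by gcongr
          _ = B ^ 8 := by ring
    _ = (B ^ K.kn / 2) / (8 * B ^ 4) := by
        field_simp
        norm_num
    _ ≤ (B ^ K.kn - 1) / (8 * B ^ 4) := by
        gcongr
        linarith

/-- exponentially small terms, third form: overlaps of the rings -/
theorem tiny_pow (h : Budget c K B) (hB : 2 ≤ B) {n : ℕ} (hn : (n : ℝ) = B ^ K.kn) (hn2 : 2 ≤ n)
    {x : ℝ} (hx0 : 0 ≤ x) (hx : x ≤ 1 - 1 / B ^ 2) :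
    x ^ (n - 1) ≤ 1 / (B * B ^ K.kn * B ^ K.ks * B ^ K.kS * B ^ K.kt * B ^ K.kZ) ^ c := by
  refine le_trans ?_ (h.tiny_exp hB (by rw [← hn]; exact_mod_cast hn2))
  have hB1 : 1 ≤ B := by linarith
  have h1 : x ≤ Real.exp (-(1 / B ^ 2)) := by
    have := Real.add_one_le_exp (-(1 / B ^ 2))
    linarith
  calc x ^ (n - 1) ≤ Real.exp (-(1 / B ^ 2)) ^ (n - 1) := by gcongr
    _ = Real.exp (-(((n : ℝ) - 1) / B ^ 2)) := by
        rw [← Real.exp_nat_mul]
        congr 1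
        rw [Nat.cast_sub (by omega)]
        push_cast
        ring
    _ ≤ Real.exp (-((B ^ K.kn - 1) / (8 * B ^ 4))) := by
        rw [← hn]
        apply Real.exp_le_exp.2
        apply neg_le_neg
        have h2 : (0 : ℝ) ≤ (n : ℝ) - 1 := by
          have : (2 : ℝ) ≤ n := by exact_mod_cast hn2
          linarith
        gcongr
        have h4 : B ^ 2 ≤ B ^ 4 := pow_le_pow_right₀ hB1 (by norm_num)
        have h5 : 0 ≤ B ^ 4 := by positivity
        linarith

end Budget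

end Vale.Agent.P370.H207
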