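import Vale.Agent.P370.H207.Riem

/-!
Coulomb integrals by Riemann sums: the kernel `1/|x-y|` is replaced by `1/max(η,|x-y|)` and the
integral by a sum over the cubic grid, with an explicit error bound.
-/

namespace Vale.Agent.P370.H207

open MeasureTheory Set Metric
open scoped ENNReal

noncomputable section

/-- the Coulomb kernel with cut-off -/
def kc (η : ℝ) (x y : R3) : ℝ := 1 / max η ‖x - y‖

theorem kc_nonneg {η : ℝ} (hη : 0 < η) (x y : R3) : 0 ≤ kc η x y := by
  unfold kc
  have : 0 < max η ‖x - y‖ := lt_max_of_lt_left hη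
  positivity

theorem kc_le {η : ℝ} (hη : 0 < η) (x y : R3) : kc η x y ≤ 1 / η := by
  unfold kc
  exact one_div_le_one_div_of_le hη (le_max_left _ _)

theorem kc_comm (η : ℝ) (x y : R3) : kc η x y = kc η y x := by
  unfold kc
  rw [norm_sub_rev]

theorem kc_lip {η : ℝ} (hη : 0 < η) (x x' y : R3) :
    |kc η x y - kc η x' y| ≤ ‖x - x'‖ / η ^ 2 := by
  unfold kc
  have h1 : 0 < max η ‖x - y‖ := lt_max_of_lt_left hη
  have h2 : 0 < max η ‖x' - y‖ := lt_max_of_lt_left hη
  rw [div_sub_div _ _ h1.ne' h2.ne', abs_div, abs_of_pos (mul_pos h1 h2), one_mul, mul_one]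
  have h3 : |max η ‖x' - y‖ - max η ‖x - y‖| ≤ ‖x - x'‖ := by
    rw [max_comm η, max_comm η]
    refine (abs_max_sub_max_le_abs _ _ _).trans ?_
    refine (abs_norm_sub_norm_le _ _).trans ?_
    rw [sub_sub_sub_cancel_right, norm_sub_rev]
  have h4 : η ^ 2 ≤ max η ‖x - y‖ * max η ‖x' - y‖ := by
    rw [sq]
    exact mul_le_mul (le_max_left _ _) (le_max_left _ _) hη.le h1.le
  exact div_le_div₀ (norm_nonneg _) h3 (by positivity) h4

theorem continuous_kc {η : ℝ} (hη : 0 < η) (y : R3) : Continuous fun x => kc η x y := by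
  unfold kc
  refine continuous_const.div ?_ fun x => (lt_max_of_lt_left hη).ne'
  fun_prop

theorem integrableOn_inv_ball (η : ℝ) :
    IntegrableOn (fun z : R3 => 1 / ‖z‖) (ball (0 : R3) η) := by
  have h := (integrableOn_fun_norm_addHaar (volume : Measure R3) (f := fun r : ℝ => 1 / r)
    (r := η)).2 ?_
  · exact h
  · have h2 : Module.finrank ℝ R3 - 1 = 2 := by simp
    rw [h2]
    refine (integrableOn_congr_fun (g := fun y : ℝ => y) ?_ measurableSet_Ioo).2 ?_
    · intro y hy
      have : y ≠ 0 := hy.1.ne'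
      simp only [smul_eq_mul]
      field_simp
    · exact (continuous_id.integrableOn_Icc (a := 0) (b := η)).mono_set Ioo_subset_Icc_self

theorem integral_inv_ball {η : ℝ} (hη : 0 < η) :
    ∫ z in ball (0 : R3) η, 1 / ‖z‖ = 2 * Real.pi * η ^ 2 := by
  have h1 : ∫ z in ball (0 : R3) η, 1 / ‖z‖ =
      ∫ z : R3, (Iio η).indicator (fun r : ℝ => 1 / r) ‖z‖ := by
    rw [← integral_indicator measurableSet_ball]
    congr 1
    ext z
    simp [indicator]
  rw [h1, integral_fun_norm_addHaar (volume : Measure R3)]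
  have h2 : Module.finrank ℝ R3 = 3 := by simp
  rw [h2, measureReal_def, EuclideanSpace.volume_ball_fin_three]
  have h3 : ∫ y in Ioi (0 : ℝ), y ^ (3 - 1) • (Iio η).indicator (fun r : ℝ => 1 / r) y =
      η ^ 2 / 2 := by
    have h4 : ∀ y ∈ Ioi (0 : ℝ), y ^ (3 - 1) • (Iio η).indicator (fun r : ℝ => 1 / r) y =
        (Ioo 0 η).indicator (fun r : ℝ => r) y := by
      intro y hy
      have hy' : 0 < y := hy
      by_cases h : y < η
      · rw [indicator_of_mem (show y ∈ Iio η from h), indicator_of_mem (show y ∈ Ioo 0 η from ⟨hy', h⟩)]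
        simp only [smul_eq_mul]
        norm_num
        field_simp
      · rw [indicator_of_notMem (show y ∉ Iio η from h),
          indicator_of_notMem (show y ∉ Ioo 0 η from fun h' => h h'.2)]
        simp
    rw [setIntegral_congr_fun measurableSet_Ioi h4, setIntegral_indicator measurableSet_Ioo]
    have h5 : Ioi (0 : ℝ) ∩ Ioo 0 η = Ioo 0 η := by
      ext y
      simp only [mem_inter_iff, mem_Ioi, mem_Ioo]
      tauto
    rw [h5, ← integral_Ioc_eq_integral_Ioo, ← intervalIntegral.integral_of_le hη.le, integral_id]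
    ring
  rw [h3]
  simp only [ENNReal.ofReal_one, one_pow, one_mul, nsmul_eq_mul, smul_eq_mul]
  rw [ENNReal.toReal_ofReal (by positivity)]
  push_cast
  ring

theorem ball_eq_preimage (y : R3) (η : ℝ) : ball y η = (fun x => x - y) ⁻¹' ball (0 : R3) η := by
  ext x
  simp [mem_ball, dist_eq_norm]

theorem integrableOn_inv_ball' (y : R3) (η : ℝ) :
    IntegrableOn (fun x : R3 => 1 / ‖x - y‖) (ball y η) := by
  have h := (measurePreserving_sub_right (volume : Measure R3) y).integrableOn_comp_preimage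
    (MeasurableEquiv.subRight y).measurableEmbedding (f := fun z : R3 => 1 / ‖z‖)
    (s := ball (0 : R3) η)
  rw [ball_eq_preimage]
  exact h.2 (integrableOn_inv_ball η)

theorem integral_inv_ball' (y : R3) {η : ℝ} (hη : 0 < η) :
    ∫ x in ball y η, 1 / ‖x - y‖ = 2 * Real.pi * η ^ 2 := by
  rw [← integral_inv_ball hη, ball_eq_preimage]
  exact (measurePreserving_sub_right (volume : Measure R3) y).setIntegral_preimage_emb
    (MeasurableEquiv.subRight y).measurableEmbedding (fun z : R3 => 1 / ‖z‖) (ball (0 : R3) η)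

theorem integrable_div {f : R3 → ℝ} {F : ℝ} (hf : Integrable f) (hF : ∀ x, |f x| ≤ F) (y : R3) :
    Integrable fun x => f x / ‖x - y‖ := by
  have h1 : Integrable fun x => F * (ball y 1).indicator (fun x => 1 / ‖x - y‖) x + |f x| :=
    ((integrable_indicator_iff measurableSet_ball).2 (integrableOn_inv_ball' y 1)).const_mul F
      |>.add hf.abs
  refine h1.mono' (hf.aestronglyMeasurable.aemeasurable.div
    (by fun_prop : Measurable fun x : R3 => ‖x - y‖).aemeasurable).aestronglyMeasurable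
    (Filter.Eventually.of_forall ?_)
  intro x
  have hF0 : 0 ≤ F := (abs_nonneg _).trans (hF x)
  rw [Real.norm_eq_abs, abs_div, abs_of_nonneg (norm_nonneg _)]
  by_cases hx : x ∈ ball y 1
  · rw [indicator_of_mem hx]
    have : |f x| / ‖x - y‖ ≤ F * (1 / ‖x - y‖) := by
      rw [div_eq_mul_one_div]
      exact mul_le_mul_of_nonneg_right (hF x) (by positivity)
    linarith [abs_nonneg (f x)]
  · rw [indicator_of_notMem hx]
    have h : 1 ≤ ‖x - y‖ := by
      simpa [mem_ball, dist_eq_norm] using hx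
    have : |f x| / ‖x - y‖ ≤ |f x| := div_le_self (abs_nonneg _) h
    linarith

theorem integrable_mul_kc {f : R3 → ℝ} (hf : Integrable f) {η : ℝ} (hη : 0 < η) (y : R3) :
    Integrable fun x => f x * kc η x y := by
  refine (hf.mul_const (1 / η)).mono (hf.aestronglyMeasurable.mul
    (continuous_kc hη y).aestronglyMeasurable) (Filter.Eventually.of_forall ?_)
  intro x
  rw [norm_mul, norm_mul]
  refine mul_le_mul_of_nonneg_left ?_ (norm_nonneg _)
  rw [Real.norm_of_nonneg (kc_nonneg hη x y), Real.norm_of_nonneg (by positivity)]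
  exact kc_le hη x y

/-- the error of the cut-off -/
theorem pot_cut {f : R3 → ℝ} {F : ℝ} (hf : Integrable f) (hF : ∀ x, |f x| ≤ F) {η : ℝ}
    (hη : 0 < η) (y : R3) :
    |(∫ x, f x / ‖x - y‖) - ∫ x, f x * kc η x y| ≤ F * (2 * Real.pi * η ^ 2) := by
  rw [← integral_sub (integrable_div hf hF y) (integrable_mul_kc hf hη y), ← Real.norm_eq_abs]
  have h1 : Integrable fun x => F * (ball y η).indicator (fun x => 1 / ‖x - y‖) x :=
    ((integrable_indicator_iff measurableSet_ball).2 (integrableOn_inv_ball' y η)).const_mul F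
  have h2 : ∫ x, F * (ball y η).indicator (fun x => 1 / ‖x - y‖) x =
      F * (2 * Real.pi * η ^ 2) := by
    rw [integral_const_mul, integral_indicator measurableSet_ball, integral_inv_ball' y hη]
  rw [← h2]
  refine norm_integral_le_of_norm_le h1 ?_
  have hne : ∀ᵐ x : R3, x ≠ y := by
    rw [ae_iff]
    simp
  filter_upwards [hne] with x hx
  have hF0 : 0 ≤ F := (abs_nonneg _).trans (hF x)
  have hp : 0 < ‖x - y‖ := norm_pos_iff.2 (sub_ne_zero.2 hx)
  have h3 : f x / ‖x - y‖ - f x * kc η x y = f x * (1 / ‖x - y‖ - kc η x y) := by ring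
  rw [h3, norm_mul, Real.norm_eq_abs, Real.norm_eq_abs]
  by_cases hb : x ∈ ball y η
  · rw [indicator_of_mem hb]
    refine mul_le_mul (hF x) ?_ (abs_nonneg _) hF0
    have h4 : kc η x y ≤ 1 / ‖x - y‖ := one_div_le_one_div_of_le hp (le_max_right _ _)
    rw [abs_of_nonneg (by linarith)]
    linarith [kc_nonneg hη x y]
  · rw [indicator_of_notMem hb]
    have h : η ≤ ‖x - y‖ := by
      simpa [mem_ball, dist_eq_norm] using hb
    unfold kc
    rw [max_eq_right h]
    simp

/-- The data of a function to be integrated: integrable, bounded by `F`, Lipschitz with constant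
`L`, mass at most `I`, mass outside the cube `[-A,A)³` at most `τ`. -/
structure RF (f : R3 → ℝ) (F L I τ : ℝ) (A : ℕ) : Prop where
  int : Integrable f
  bd : ∀ x, |f x| ≤ F
  lip : ∀ x y, |f x - f y| ≤ L * ‖x - y‖
  mass : ∫ x, |f x| ≤ I
  tail : ∫ x in (cube (A : ℝ))ᶜ, |f x| ≤ τ

namespace RF

variable {f g : R3 → ℝ} {F L I τ G L' I' τ' : ℝ} {A : ℕ}

theorem F_nonneg (h : RF f F L I τ A) : 0 ≤ F := (abs_nonneg _).trans (h.bd 0)

theorem L_nonneg (h : RF f F L I τ A) : 0 ≤ L := by
  have h1 := h.lip (EuclideanSpace.single 0 1) 0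
  have h2 : ‖(EuclideanSpace.single (0 : Fin 3) (1 : ℝ) : R3) - 0‖ = 1 := by simp
  rw [h2, mul_one] at h1
  exact (abs_nonneg _).trans h1

theorem I_nonneg (h : RF f F L I τ A) : 0 ≤ I :=
  (integral_nonneg fun _ => abs_nonneg _).trans h.mass

theorem tau_nonneg (h : RF f F L I τ A) : 0 ≤ τ :=
  (integral_nonneg fun _ => abs_nonneg _).trans h.tail

/-- Riemann sum of the integral with the cut-off kernel. -/
theorem kc_riemann (h : RF f F L I τ A) {q : ℕ} (hq : 0 < q) {η : ℝ} (hη : 0 < η) (y : R3) :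
    |(∫ x, f x * kc η x y) - (1 / (q : ℝ)) ^ 3 * ∑ a ∈ grid A q, f (gpt q a) * kc η (gpt q a) y| ≤
      τ / η + 16 * (A : ℝ) ^ 3 * (L / η + F / η ^ 2) / q := by
  have hF := h.F_nonneg
  have hL := h.L_nonneg
  have hi := integrable_mul_kc h.int hη y
  have h1 : (∫ x, f x * kc η x y) = (∫ x in cube (A : ℝ), f x * kc η x y) +
      ∫ x in (cube (A : ℝ))ᶜ, f x * kc η x y :=
    (integral_add_compl (measurableSet_cube _) hi).symm
  have h2 : |∫ x in (cube (A : ℝ))ᶜ, f x * kc η x y| ≤ τ / η := by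
    rw [← Real.norm_eq_abs]
    calc ‖∫ x in (cube (A : ℝ))ᶜ, f x * kc η x y‖
        ≤ ∫ x in (cube (A : ℝ))ᶜ, |f x| * (1 / η) := by
          refine norm_integral_le_of_norm_le (h.int.abs.mul_const _).integrableOn ?_
          refine Filter.Eventually.of_forall fun x => ?_
          rw [norm_mul, Real.norm_eq_abs, Real.norm_of_nonneg (kc_nonneg hη x y)]
          exact mul_le_mul_of_nonneg_left (kc_le hη x y) (abs_nonneg _)
      _ = (∫ x in (cube (A : ℝ))ᶜ, |f x|) * (1 / η) := integral_mul_const _ _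
      _ ≤ τ * (1 / η) := mul_le_mul_of_nonneg_right h.tail (by positivity)
      _ = τ / η := by ring
  have h3 := riemann_cube (A := A) hq (u := fun x => f x * kc η x y)
    (L := L / η + F / η ^ 2) (by positivity) (by
      intro a _ x _
      have e1 : f x * kc η x y - f (gpt q a) * kc η (gpt q a) y =
          (f x - f (gpt q a)) * kc η x y + f (gpt q a) * (kc η x y - kc η (gpt q a) y) := by ring
      rw [e1]
      refine (abs_add_le _ _).trans ?_
      rw [abs_mul, abs_mul, abs_of_nonneg (kc_nonneg hη x y)]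
      have e2 : |f x - f (gpt q a)| * kc η x y ≤ L * ‖x - gpt q a‖ * (1 / η) :=
        mul_le_mul (h.lip _ _) (kc_le hη _ _) (kc_nonneg hη _ _) (by positivity)
      have e3 : |f (gpt q a)| * |kc η x y - kc η (gpt q a) y| ≤ F * (‖x - gpt q a‖ / η ^ 2) :=
        mul_le_mul (h.bd _) (kc_lip hη _ _ _) (abs_nonneg _) hF
      calc _ ≤ L * ‖x - gpt q a‖ * (1 / η) + F * (‖x - gpt q a‖ / η ^ 2) := add_le_add e2 e3
        _ = (L / η + F / η ^ 2) * ‖x - gpt q a‖ := by ring) hi.integrableOn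
  rw [h1]
  have e : ∀ a b c : ℝ, a + b - c = (a - c) + b := by intros; ring
  rw [e]
  refine (abs_add_le _ _).trans ?_
  linarith [h2, h3]

/-- **Riemann sum of a Coulomb potential.** -/
theorem pot_riemann (h : RF f F L I τ A) {q : ℕ} (hq : 0 < q) {η : ℝ} (hη : 0 < η) (y : R3) :
    |(∫ x, f x / ‖x - y‖) - (1 / (q : ℝ)) ^ 3 * ∑ a ∈ grid A q, f (gpt q a) * kc η (gpt q a) y| ≤
      7 * F * η ^ 2 + (τ / η + 16 * (A : ℝ) ^ 3 * (L / η + F / η ^ 2) / q) := by
  have h1 := pot_cut h.int h.bd hη y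
  have h2 := h.kc_riemann hq hη y
  have h3 : F * (2 * Real.pi * η ^ 2) ≤ 7 * F * η ^ 2 := by
    have : 2 * Real.pi ≤ 7 := by linarith [Real.pi_lt_d2]
    have h5 : 0 ≤ F * η ^ 2 := mul_nonneg h.F_nonneg (by positivity)
    nlinarith
  have e : ∀ a b c : ℝ, a - c = (a - b) + (b - c) := by intros; ring
  rw [e _ (∫ x, f x * kc η x y)]
  refine (abs_add_le _ _).trans ?_
  linarith

/-- the mass of the Riemann sum -/
theorem sum_abs_le (h : RF f F L I τ A) {q : ℕ} (hq : 0 < q) :
    (1 / (q : ℝ)) ^ 3 * ∑ a ∈ grid A q, |f (gpt q a)| ≤ 8 * (A : ℝ) ^ 3 * F := by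
  have hq' : (0 : ℝ) < q := by exact_mod_cast hq
  calc (1 / (q : ℝ)) ^ 3 * ∑ a ∈ grid A q, |f (gpt q a)|
      ≤ (1 / (q : ℝ)) ^ 3 * ∑ _a ∈ grid A q, F :=
        mul_le_mul_of_nonneg_left (Finset.sum_le_sum fun a _ => h.bd _) (by positivity)
    _ = 8 * (A : ℝ) ^ 3 * F := by
        rw [Finset.sum_const, card_grid, nsmul_eq_mul]
        push_cast
        field_simp
        ring

/-- The Riemann sum of the Coulomb energy of two densities. -/
def csum (q A : ℕ) (η : ℝ) (f g : R3 → ℝ) : ℝ :=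
  (1 / (q : ℝ)) ^ 3 * ∑ b ∈ grid A q, g (gpt q b) *
    ((1 / (q : ℝ)) ^ 3 * ∑ a ∈ grid A q, f (gpt q a) * kc η (gpt q a) (gpt q b))

/-- **Riemann sum of a Coulomb energy.** -/
theorem coul_riemann (hf : RF f F L I τ A) (hg : RF g G L' I' τ' A) {q : ℕ} (hq : 0 < q) {η : ℝ}
    (hη : 0 < η) :
    |(∫ y, g y * ∫ x, f x / ‖x - y‖) - csum q A η f g| ≤
      I' * (7 * F * η ^ 2 + (τ / η + 16 * (A : ℝ) ^ 3 * (L / η + F / η ^ 2) / q)) +
      8 * (A : ℝ) ^ 3 * F * (τ' / η + 16 * (A : ℝ) ^ 3 * (L' / η + G / η ^ 2) / q) := by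
  set e1 := 7 * F * η ^ 2 + (τ / η + 16 * (A : ℝ) ^ 3 * (L / η + F / η ^ 2) / q) with he1
  set e2 := τ' / η + 16 * (A : ℝ) ^ 3 * (L' / η + G / η ^ 2) / q with he2
  have hq' : (0 : ℝ) < q := by exact_mod_cast hq
  set S : R3 → ℝ := fun y => (1 / (q : ℝ)) ^ 3 * ∑ a ∈ grid A q, f (gpt q a) * kc η (gpt q a) y
    with hS
  have hSc : Continuous S := by
    refine continuous_const.mul (continuous_finsetSum _ fun a _ => continuous_const.mul ?_)
    have := continuous_kc hη (gpt q a)
    exact this.congr fun y => kc_comm _ _ _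
  have hpot : ∀ y, |(∫ x, f x / ‖x - y‖) - S y| ≤ e1 := fun y => hf.pot_riemann hq hη y
  have hSb : ∀ y, |S y| ≤ 8 * (A : ℝ) ^ 3 * F / η := by
    intro y
    rw [hS]
    simp only
    rw [abs_mul, abs_of_nonneg (by positivity : (0 : ℝ) ≤ (1 / (q : ℝ)) ^ 3)]
    calc (1 / (q : ℝ)) ^ 3 * |∑ a ∈ grid A q, f (gpt q a) * kc η (gpt q a) y|
        ≤ (1 / (q : ℝ)) ^ 3 * ∑ a ∈ grid A q, |f (gpt q a)| * (1 / η) := by
          refine mul_le_mul_of_nonneg_left ?_ (by positivity)
          refine (Finset.abs_sum_le_sum_abs _ _).trans (Finset.sum_le_sum fun a _ => ?_)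
          rw [abs_mul, abs_of_nonneg (kc_nonneg hη _ _)]
          exact mul_le_mul_of_nonneg_left (kc_le hη _ _) (abs_nonneg _)
      _ = ((1 / (q : ℝ)) ^ 3 * ∑ a ∈ grid A q, |f (gpt q a)|) * (1 / η) := by
          rw [← Finset.sum_mul]
          ring
      _ ≤ 8 * (A : ℝ) ^ 3 * F * (1 / η) :=
          mul_le_mul_of_nonneg_right (hf.sum_abs_le hq) (by positivity)
      _ = 8 * (A : ℝ) ^ 3 * F / η := by ring
  have hgS : Integrable fun y => g y * S y := by
    refine (hg.int.mul_const (8 * (A : ℝ) ^ 3 * F / η)).mono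
      (hg.int.aestronglyMeasurable.mul hSc.aestronglyMeasurable)
      (Filter.Eventually.of_forall fun y => ?_)
    rw [norm_mul (g y) (S y), norm_mul (g y)]
    refine mul_le_mul_of_nonneg_left ?_ (norm_nonneg _)
    rw [Real.norm_eq_abs]
    refine (hSb y).trans (le_abs_self _)
  have hgP : Integrable fun y => g y * ∫ x, f x / ‖x - y‖ := by
    have hm : AEStronglyMeasurable (fun y : R3 => ∫ x, f x / ‖x - y‖) := by
      have : AEStronglyMeasurable (fun p : R3 × R3 => f p.2 / ‖p.2 - p.1‖)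
          ((volume : Measure R3).prod volume) := by
        exact (hf.int.aestronglyMeasurable.comp_snd.aemeasurable.div
          (by fun_prop : Measurable fun p : R3 × R3 => ‖p.2 - p.1‖).aemeasurable).aestronglyMeasurable
      exact this.integral_prod_right'
    refine (hg.int.mul_const (8 * (A : ℝ) ^ 3 * F / η + e1)).mono
      (hg.int.aestronglyMeasurable.mul hm) (Filter.Eventually.of_forall fun y => ?_)
    rw [norm_mul, norm_mul]
    refine mul_le_mul_of_nonneg_left ?_ (norm_nonneg _)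
    rw [Real.norm_eq_abs]
    have h1 := hpot y
    have h2 := hSb y
    have h3 : |∫ x, f x / ‖x - y‖| ≤ 8 * (A : ℝ) ^ 3 * F / η + e1 := by
      calc |∫ x, f x / ‖x - y‖| = |S y + ((∫ x, f x / ‖x - y‖) - S y)| := by ring_nf
        _ ≤ |S y| + |(∫ x, f x / ‖x - y‖) - S y| := abs_add_le _ _
        _ ≤ _ := add_le_add h2 h1
    exact h3.trans (le_abs_self _)
  have hA : |(∫ y, g y * ∫ x, f x / ‖x - y‖) - ∫ y, g y * S y| ≤ I' * e1 := by
    rw [← integral_sub hgP hgS, ← Real.norm_eq_abs]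
    calc ‖∫ y, (g y * (∫ x, f x / ‖x - y‖) - g y * S y)‖ ≤ ∫ y, |g y| * e1 := by
          refine norm_integral_le_of_norm_le (hg.int.abs.mul_const _)
            (Filter.Eventually.of_forall fun y => ?_)
          rw [← mul_sub, norm_mul, Real.norm_eq_abs, Real.norm_eq_abs]
          exact mul_le_mul_of_nonneg_left (hpot y) (abs_nonneg _)
      _ = (∫ y, |g y|) * e1 := integral_mul_const _ _
      _ ≤ I' * e1 := mul_le_mul_of_nonneg_right hg.mass ((abs_nonneg _).trans (hpot 0))
  have hB : (∫ y, g y * S y) = (1 / (q : ℝ)) ^ 3 *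
      ∑ a ∈ grid A q, f (gpt q a) * ∫ y, g y * kc η y (gpt q a) := by
    have e : ∀ y, g y * S y = (1 / (q : ℝ)) ^ 3 *
        ∑ a ∈ grid A q, f (gpt q a) * (g y * kc η y (gpt q a)) := by
      intro y
      rw [hS]
      simp only
      rw [Finset.mul_sum, Finset.mul_sum, Finset.mul_sum]
      refine Finset.sum_congr rfl fun a _ => ?_
      rw [kc_comm η (gpt q a) y]
      ring
    simp only [e]
    rw [integral_const_mul, integral_finsetSum _ fun a _ =>
      (integrable_mul_kc hg.int hη (gpt q a)).const_mul _]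
    simp only [integral_const_mul]
  have hC : |(∫ y, g y * S y) - csum q A η f g| ≤ 8 * (A : ℝ) ^ 3 * F * e2 := by
    have e3 : csum q A η f g = (1 / (q : ℝ)) ^ 3 * ∑ a ∈ grid A q, f (gpt q a) *
        ((1 / (q : ℝ)) ^ 3 * ∑ b ∈ grid A q, g (gpt q b) * kc η (gpt q b) (gpt q a)) := by
      unfold csum
      congr 1
      simp only [Finset.mul_sum]
      rw [Finset.sum_comm]
      refine Finset.sum_congr rfl fun a _ => Finset.sum_congr rfl fun b _ => ?_
      rw [kc_comm η (gpt q a)]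
      ring
    rw [hB, e3, ← mul_sub, ← Finset.sum_sub_distrib, abs_mul,
      abs_of_nonneg (by positivity : (0 : ℝ) ≤ (1 / (q : ℝ)) ^ 3)]
    calc _ ≤ (1 / (q : ℝ)) ^ 3 * ∑ a ∈ grid A q, |f (gpt q a)| * e2 := by
          refine mul_le_mul_of_nonneg_left ?_ (by positivity)
          refine (Finset.abs_sum_le_sum_abs _ _).trans (Finset.sum_le_sum fun a _ => ?_)
          rw [← mul_sub, abs_mul]
          exact mul_le_mul_of_nonneg_left (hg.kc_riemann hq hη (gpt q a)) (abs_nonneg _)
      _ = ((1 / (q : ℝ)) ^ 3 * ∑ a ∈ grid A q, |f (gpt q a)|) * e2 := by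
          rw [← Finset.sum_mul]
          ring
      _ ≤ 8 * (A : ℝ) ^ 3 * F * e2 :=
          mul_le_mul_of_nonneg_right (hf.sum_abs_le hq)
            ((abs_nonneg _).trans (hg.kc_riemann hq hη 0))
  have e : ∀ a b c : ℝ, a - c = (a - b) + (b - c) := by intros; ring
  rw [e _ (∫ y, g y * S y)]
  exact (abs_add_le _ _).trans (add_le_add hA hC)

end RF

end

end Vale.Agent.P370.H207
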