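import Vale.Agent.P370.H207.Ring

/-!
The charge integrals of the rings are sums over a grid up to a prescribed error.
-/

namespace Vale.Agent.P370.H207

open MeasureTheory Set Metric
open Vale.Agent.P370.H115 Vale.Agent.P363.R.H10
open scoped ENNReal Nat

noncomputable section

/-- inverse cut-off -/
def cT (n t : ℕ) : ℕ := 58 * n * t
/-- half the side of the cube -/
def cA (n t : ℕ) : ℕ := 512 * n ^ 5 * cT n t
/-- inverse mesh -/
def cq (n t : ℕ) : ℕ := 1280 * cA n t ^ 6 * cT n t ^ 4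

/-- the approximation of `DD (ringC n a ^ 2) (ringC n b ^ 2)` -/
def dsum (n t : ℕ) (a b : ℝ) : ℝ :=
  RF.csum (cq n t) (cA n t) (1 / (cT n t : ℝ)) (fun x => ringC n b x ^ 2) (fun x => ringC n a x ^ 2)

theorem dd_eq (u w : R3 → ℝ) : DD u w = ∫ x, u x * ∫ y, w y / ‖y - x‖ := by
  unfold DD
  congr 1
  ext x
  rw [← integral_const_mul]
  congr 1
  ext y
  rw [norm_sub_rev]
  ring

/-- **The charge integrals are grid sums up to `1/t`.** -/
theorem dsum_err {n t : ℕ} (hn : 2 ≤ n) (ht : 0 < t) (a b : ℝ) :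
    |DD (fun x => ringC n a x ^ 2) (fun x => ringC n b x ^ 2) - dsum n t a b| ≤ 1 / t := by
  have hn' : (1 : ℝ) ≤ n := by exact_mod_cast (by omega : 1 ≤ n)
  have ht' : (1 : ℝ) ≤ t := by exact_mod_cast ht
  have hT : 0 < cT n t := by unfold cT; positivity
  have hA : 0 < cA n t := by unfold cA; positivity
  have hq : 0 < cq n t := by unfold cq; positivity
  have h := RF.coul_riemann (rf_ringC hn b hA) (rf_ringC hn a hA) hq
    (η := 1 / (cT n t : ℝ)) (by positivity)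
  rw [dd_eq]
  refine h.trans ?_
  set T : ℝ := (cT n t : ℝ) with hTd
  set A : ℝ := (cA n t : ℝ) with hAd
  set q : ℝ := (cq n t : ℝ) with hqd
  have hT1 : T = 58 * n * t := by rw [hTd]; unfold cT; push_cast; ring
  have hA1 : A = 512 * n ^ 5 * T := by rw [hAd]; unfold cA; push_cast; ring
  have hq1 : q = 1280 * A ^ 6 * T ^ 4 := by rw [hqd]; unfold cq; push_cast; ring
  have hTp : 1 ≤ T := by
    rw [hT1]
    have : (1 : ℝ) ≤ n * t := by nlinarith
    nlinarith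
  have hAn : (n : ℝ) ≤ A := by
    rw [hA1]
    have h1 : (n : ℝ) ≤ n ^ 5 := le_self_pow₀ hn' (by norm_num)
    nlinarith [pow_pos (by linarith : (0 : ℝ) < n) 5]
  have hAp : 1 ≤ A := hn'.trans hAn
  have hτ : 8 * ((2 * n + 6 : ℕ) : ℝ) ^ 6 * (n : ℝ) ^ 7 / A ^ 6 ≤ 2 ^ 21 * (n : ℝ) ^ 13 / A ^ 6 := by
    have h1 : ((2 * n + 6 : ℕ) : ℝ) ≤ 8 * n := by push_cast; linarith
    have h2 : ((2 * n + 6 : ℕ) : ℝ) ^ 6 ≤ (8 * n) ^ 6 := by gcongr
    have h3 : 8 * ((2 * n + 6 : ℕ) : ℝ) ^ 6 * (n : ℝ) ^ 7 ≤ 2 ^ 21 * (n : ℝ) ^ 13 := by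
      calc 8 * ((2 * n + 6 : ℕ) : ℝ) ^ 6 * (n : ℝ) ^ 7 ≤ 8 * (8 * n) ^ 6 * n ^ 7 := by gcongr
        _ = _ := by ring
    exact div_le_div_of_nonneg_right h3 (by positivity)
  set τ := 8 * ((2 * n + 6 : ℕ) : ℝ) ^ 6 * (n : ℝ) ^ 7 / A ^ 6 with hτd
  have hτ0 : 0 ≤ τ := by positivity
  have e1 : τ / (1 / T) = τ * T := by field_simp
  have e2 : 16 * A ^ 3 * (4 / (1 / T) + 1 / (1 / T) ^ 2) / q ≤ 80 * A ^ 3 * T ^ 2 / q := by
    have : 4 / (1 / T) + 1 / (1 / T) ^ 2 ≤ 5 * T ^ 2 := by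
      have h1 : 4 / (1 / T) + 1 / (1 / T) ^ 2 = 4 * T + T ^ 2 := by field_simp
      rw [h1]
      nlinarith
    calc _ ≤ 16 * A ^ 3 * (5 * T ^ 2) / q := by gcongr
      _ = _ := by ring
  have hA3 : (n : ℝ) ≤ A ^ 3 := hAn.trans (le_self_pow₀ hAp (by norm_num))
  have e3 : τ * T ≤ 1 / (64 * A ^ 3 * T ^ 2) := by
    calc τ * T ≤ (2 ^ 21 * (n : ℝ) ^ 13 / A ^ 6) * T := by gcongr
      _ = (2 ^ 21 * (n : ℝ) ^ 13 * T / A ^ 3) / A ^ 3 := by field_simp
      _ ≤ (1 / (64 * T ^ 2)) / A ^ 3 := by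
          gcongr ?_ / _
          rw [div_le_div_iff₀ (by positivity) (by positivity), one_mul, hA1]
          have : (512 * (n : ℝ) ^ 5 * T) ^ 3 = (2 ^ 21 * (n : ℝ) ^ 13 * T * (64 * T ^ 2)) * n ^ 2 := by
            ring
          rw [this]
          exact le_mul_of_one_le_right (by positivity) (one_le_pow₀ hn')
      _ = _ := by field_simp
  have e4 : 80 * A ^ 3 * T ^ 2 / q = 1 / (16 * A ^ 3 * T ^ 2) := by
    rw [hq1]
    field_simp
    ring
  have e5 : τ / (1 / T) + 16 * A ^ 3 * (4 / (1 / T) + 1 / (1 / T) ^ 2) / q ≤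
      5 / (64 * A ^ 3 * T ^ 2) := by
    rw [e1]
    calc _ ≤ 1 / (64 * A ^ 3 * T ^ 2) + 80 * A ^ 3 * T ^ 2 / q := add_le_add e3 e2
      _ = 5 / (64 * A ^ 3 * T ^ 2) := by rw [e4]; field_simp; norm_num
  set X := τ / (1 / T) + 16 * A ^ 3 * (4 / (1 / T) + 1 / (1 / T) ^ 2) / q with hX
  have hfin : 8 * (n : ℝ) * (7 * 1 * (1 / T) ^ 2 + X) + 8 * A ^ 3 * 1 * X ≤ 58 * n / T ^ 2 := by
    have h1 : 8 * (n : ℝ) * X + 8 * A ^ 3 * X ≤ 16 * A ^ 3 * (5 / (64 * A ^ 3 * T ^ 2)) := by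
      have hX0 : 0 ≤ X := by positivity
      calc _ ≤ 8 * A ^ 3 * X + 8 * A ^ 3 * X := by gcongr
        _ = 16 * A ^ 3 * X := by ring
        _ ≤ _ := by gcongr
    have h2 : 16 * A ^ 3 * (5 / (64 * A ^ 3 * T ^ 2)) = (5 / 4) / T ^ 2 := by
      field_simp
      norm_num
    have h3 : (5 / 4 : ℝ) / T ^ 2 ≤ 2 * n / T ^ 2 := by
      gcongr
      linarith
    calc _ = 56 * n / T ^ 2 + (8 * (n : ℝ) * X + 8 * A ^ 3 * X) := by field_simp; ring
      _ ≤ 56 * n / T ^ 2 + 2 * n / T ^ 2 := by linarith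
      _ = _ := by ring
  refine hfin.trans ?_
  rw [hT1, div_le_div_iff₀ (by positivity) (by positivity)]
  have : (1 : ℝ) ≤ n * t := by nlinarith
  nlinarith

/-! ### The grid sum as an iterated sum over natural numbers -/

/-- the grid point with natural coordinates -/
def npt (A q : ℕ) (i j l : ℕ) : R3 := !₂[((i : ℝ) - (A * q : ℕ)) / q, ((j : ℝ) - (A * q : ℕ)) / q,
  ((l : ℝ) - (A * q : ℕ)) / q]

theorem sum_grid (A q : ℕ) (F : R3 → ℝ) :
    ∑ a ∈ grid A q, F (gpt q a) = ∑ i ∈ Finset.range (2 * (A * q)),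
      ∑ j ∈ Finset.range (2 * (A * q)), ∑ l ∈ Finset.range (2 * (A * q)), F (npt A q i j l) := by
  simp only [← Finset.sum_product']
  symm
  refine Finset.sum_bij' (fun p _ => ![(p.1 : ℤ) - (A * q : ℕ), (p.2.1 : ℤ) - (A * q : ℕ),
      (p.2.2 : ℤ) - (A * q : ℕ)])
    (fun a _ => ((a 0 + (A * q : ℕ)).toNat, ((a 1 + (A * q : ℕ)).toNat, (a 2 + (A * q : ℕ)).toNat)))
    ?_ ?_ ?_ ?_ ?_
  · rintro ⟨i, j, l⟩ h
    simp only [Finset.mem_product, Finset.mem_range] at h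
    simp only [grid, Fintype.mem_piFinset, Finset.mem_Ico, Fin.forall_fin_succ]
    simp
    omega
  · intro a h
    simp only [grid, Fintype.mem_piFinset, Finset.mem_Ico] at h
    simp only [Finset.mem_product, Finset.mem_range]
    have h0 := h 0
    have h1 := h 1
    have h2 := h 2
    omega
  · rintro ⟨i, j, l⟩ h
    simp
  · intro a h
    simp only [grid, Fintype.mem_piFinset, Finset.mem_Ico] at h
    have h0 := h 0
    have h1 := h 1
    have h2 := h 2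
    ext i
    fin_cases i
    · simp; omega
    · simp; omega
    · simp; omega
  · rintro ⟨i, j, l⟩ h
    congr 1
    ext k
    fin_cases k <;> simp [npt, gpt]

end

end Vale.Agent.P370.H207
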