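import Vale.Agent.P370.H207.RingPT
import Vale.Agent.P370.H207.DSum

/-!
The charge integrals of the rings can be computed in polynomial time.
-/

namespace Vale.Agent.P370.H207

open Vale.Agent.Lib.PolyTime Function
open Vale.Agent.P370.H855 Vale.Agent.P370.H115 Vale.Agent.P363.R.H10

variable {α β γ : Type*} [Enc α] [Enc β] [Enc γ]

/-- Triple sums of polynomial length. -/
theorem PTR.sum3 {N : α → ℕ} (hN : PT ∅ N) (hNb : PBd N) {F : α → ℕ → ℕ → ℕ → ℝ}
    (hF : PTR (fun p : ((α × Un) × Un) × Un => F p.1.1.1 p.1.1.2.v p.1.2.v p.2.v)) :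
    PTR (fun a => ∑ i ∈ Finset.range (N a), ∑ j ∈ Finset.range (N a),
      ∑ l ∈ Finset.range (N a), F a i j l) := by
  refine PTR.sumUn hN hNb (F := fun a i => ∑ j ∈ Finset.range (N a),
      ∑ l ∈ Finset.range (N a), F a i j l) ?_
  refine PTR.sumUn (α := α × Un) (hN.comp PT.fst') (hNb.comp (A := ∅) PT.fst')
    (F := fun p j => ∑ l ∈ Finset.range (N p.1), F p.1 p.2.v j l) ?_
  exact PTR.sumUn (α := (α × Un) × Un) (hN.comp PT.fst'.fst) (hNb.comp (A := ∅) PT.fst'.fst)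
    (F := fun p l => F p.1.1 p.1.2.v p.2.v l) hF

theorem p3_sub (x y z x' y' z' : ℝ) : p3 x y z - p3 x' y' z' = p3 (x - x') (y - y') (z - z') := by
  ext i
  fin_cases i <;> simp [p3]

/-- the kernel with cut-off -/
theorem PTR.kc {x y z x' y' z' : α → ℝ} (hx : PTR x) (hy : PTR y) (hz : PTR z) (hx' : PTR x')
    (hy' : PTR y') (hz' : PTR z') {T : α → ℕ} (hT : PT ∅ T) (hT0 : ∀ a, 0 < T a) :
    PTR (fun a => kc (1 / (T a : ℝ)) (p3 (x a) (y a) (z a)) (p3 (x' a) (y' a) (z' a))) := by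
  have h1 : PTR (fun a => ((1 : ℤ) : ℝ) / (T a : ℝ)) := PTR.ofFrac (PT.const 1) hT
  have h2 : PTR (fun a => ‖p3 (x a - x' a) (y a - y' a) (z a - z' a)‖) :=
    PTR.norm (hx.sub hx') (hy.sub hy') (hz.sub hz')
  have hs : PT ∅ (fun a => Nat.size (T a)) := hT.natSize
  have hsb : PBd (fun a => Nat.size (T a)) := hT.pbd.mono fun a => by rw [esize_nat]
  refine ((h1.max h2).inv hs hsb fun a => ?_).congr fun a => ?_
  · have hT' : (0 : ℝ) < T a := by exact_mod_cast hT0 a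
    have h3 : (T a : ℝ) ≤ 2 ^ Nat.size (T a) := by exact_mod_cast (Nat.lt_size_self _).le
    have h4 : (1 : ℝ) / 2 ^ Nat.size (T a) ≤ 1 / T a := one_div_le_one_div_of_le hT' h3
    rw [Int.cast_one]
    refine h4.trans ((le_max_left _ _).trans (le_abs_self _))
  · unfold H207.kc
    rw [p3_sub, Int.cast_one, one_div (Max.max _ _)]

/-- the coordinates of the grid points -/
theorem PTR.coord {A q i : α → ℕ} (hA : PT ∅ A) (hq : PT ∅ q) (hi : PT ∅ i) :
    PTR (fun a => ((i a : ℝ) - ((A a * q a : ℕ) : ℝ)) / (q a : ℝ)) :=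
  (PTR.ofFrac (PT.intSub (hi.natCast) ((hA.mul hq).natCast)) hq).congr fun a => by
    push_cast
    ring

theorem npt_eq (A q i j l : ℕ) : npt A q i j l = p3 (((i : ℝ) - ((A * q : ℕ) : ℝ)) / q)
    (((j : ℝ) - ((A * q : ℕ) : ℝ)) / q) (((l : ℝ) - ((A * q : ℕ) : ℝ)) / q) := rfl

theorem abs_coord_le (A q i : ℕ) : |((i : ℝ) - ((A * q : ℕ) : ℝ)) / q| ≤ i + A := by
  rcases Nat.eq_zero_or_pos q with h | h
  · subst h
    simp
    positivity
  · have h' : (1 : ℝ) ≤ q := by exact_mod_cast h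
    rw [abs_div, abs_of_pos (by linarith : (0 : ℝ) < q), div_le_iff₀ (by linarith)]
    have h1 : |(i : ℝ) - ((A * q : ℕ) : ℝ)| ≤ i + A * q := by
      rw [abs_le]
      push_cast
      constructor <;> nlinarith [(Nat.cast_nonneg i : (0 : ℝ) ≤ i), (Nat.cast_nonneg A : (0 : ℝ) ≤ A)]
    nlinarith [(Nat.cast_nonneg i : (0 : ℝ) ≤ i), (Nat.cast_nonneg A : (0 : ℝ) ≤ A)]

theorem norm_p3_le (x y z : ℝ) : ‖p3 x y z‖ ≤ |x| + |y| + |z| := by
  rw [norm_p3, Real.sqrt_le_left (by positivity), ← sq_abs x, ← sq_abs y, ← sq_abs z]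
  nlinarith [abs_nonneg x, abs_nonneg y, abs_nonneg z, mul_nonneg (abs_nonneg x) (abs_nonneg y),
    mul_nonneg (abs_nonneg x) (abs_nonneg z), mul_nonneg (abs_nonneg y) (abs_nonneg z)]

theorem norm_npt_le (A q i j l : ℕ) : ‖npt A q i j l‖ ≤ ((i + j + l + 3 * A : ℕ) : ℝ) := by
  rw [npt_eq]
  refine (norm_p3_le _ _ _).trans ?_
  have h1 := abs_coord_le A q i
  have h2 := abs_coord_le A q j
  have h3 := abs_coord_le A q l
  push_cast at *
  linarith

variable {n A q T : α → ℕ}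

/-- The value of the density at a grid point. -/
theorem PTR.ringNpt (hn : PT ∅ n) (hnb : PBd n) (hA : PT ∅ A) (hAb : PBd A) (hq : PT ∅ q)
    {b : α → ℝ} (hb : PTR b) {B : α → ℕ} (hB : PT ∅ B) (hBb : PBd B) (hbB : ∀ a, |b a| ≤ B a) :
    PTR (fun p : ((α × Un) × Un) × Un => H115.ringC (n p.1.1.1) (b p.1.1.1)
      (npt (A p.1.1.1) (q p.1.1.1) p.1.1.2.v p.1.2.v p.2.v) ^ 2) := by
  have a1 : PT ∅ (fun p : ((α × Un) × Un) × Un => p.1.1.1) := PT.fst'.fst.fst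
  have i1 : PT ∅ (fun p : ((α × Un) × Un) × Un => p.1.1.2.v) := PT.fst'.fst.snd.unVal
  have j1 : PT ∅ (fun p : ((α × Un) × Un) × Un => p.1.2.v) := PT.fst'.snd.unVal
  have l1 : PT ∅ (fun p : ((α × Un) × Un) × Un => p.2.v) := PT.snd'.unVal
  have i1b : PBd (fun p : ((α × Un) × Un) × Un => p.1.1.2.v) := PBd.unVal (A := ∅) PT.fst'.fst.snd
  have j1b : PBd (fun p : ((α × Un) × Un) × Un => p.1.2.v) := PBd.unVal (A := ∅) PT.fst'.snd
  have l1b : PBd (fun p : ((α × Un) × Un) × Un => p.2.v) := PBd.unVal (A := ∅) PT.snd'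
  have hA' := hA.comp a1
  have hq' := hq.comp a1
  have hAb' : PBd (fun p : ((α × Un) × Un) × Un => A p.1.1.1) := hAb.comp (A := ∅) a1
  refine (PTR.powConst (PTR.ringC (PTR.coord hA' hq' i1) (PTR.coord hA' hq' j1)
    (PTR.coord hA' hq' l1) (hb.comp a1) (hn.comp a1) (hnb.comp (A := ∅) a1)
    (B := fun p => B p.1.1.1 + (p.1.1.2.v + p.1.2.v + p.2.v + 3 * A p.1.1.1))
    ((hB.comp a1).add (((i1.add j1).add l1).add ((PT.const 3).mul hA')))
    ((hBb.comp (A := ∅) a1).add (((i1b.add j1b).add l1b).add ((PBd.const 3).mul hAb')))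
    (fun p => ?_) (fun p => ?_)) 2).congr fun p => ?_
  · rw [← npt_eq]
    refine (norm_npt_le _ _ _ _ _).trans ?_
    exact_mod_cast Nat.le_add_left _ _
  · refine (hbB _).trans ?_
    exact_mod_cast Nat.le_add_right _ _
  · rw [npt_eq]

/-- The potential of the density of a ring, as a grid sum. -/
theorem PTR.potSum (hn : PT ∅ n) (hnb : PBd n) (hA : PT ∅ A) (hAb : PBd A) (hq : PT ∅ q)
    (hqb : PBd q) (hT : PT ∅ T) (hT0 : ∀ a, 0 < T a) {b : α → ℝ} (hb : PTR b) {B : α → ℕ}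
    (hB : PT ∅ B) (hBb : PBd B) (hbB : ∀ a, |b a| ≤ B a) {x y z : α → ℝ} (hx : PTR x) (hy : PTR y)
    (hz : PTR z) :
    PTR (fun a => (1 / (q a : ℝ)) ^ 3 * ∑ c ∈ grid (A a) (q a),
      H115.ringC (n a) (b a) (gpt (q a) c) ^ 2 *
        H207.kc (1 / (T a : ℝ)) (gpt (q a) c) (p3 (x a) (y a) (z a))) := by
  have a1 : PT ∅ (fun p : ((α × Un) × Un) × Un => p.1.1.1) := PT.fst'.fst.fst
  have i1 : PT ∅ (fun p : ((α × Un) × Un) × Un => p.1.1.2.v) := PT.fst'.fst.snd.unVal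
  have j1 : PT ∅ (fun p : ((α × Un) × Un) × Un => p.1.2.v) := PT.fst'.snd.unVal
  have l1 : PT ∅ (fun p : ((α × Un) × Un) × Un => p.2.v) := PT.snd'.unVal
  have hq3 : PTR (fun a => (1 / (q a : ℝ)) ^ 3) :=
    ((PTR.ofFrac (PT.const 1) hq).powConst 3).congr fun a => by push_cast; rfl
  have hN : PT ∅ (fun a => 2 * (A a * q a)) := (PT.const 2).mul (hA.mul hq)
  have hNb : PBd (fun a => 2 * (A a * q a)) := (PBd.const 2).mul (hAb.mul hqb)
  refine (hq3.mul (PTR.sum3 hN hNb (F := fun a i j l =>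
    H115.ringC (n a) (b a) (npt (A a) (q a) i j l) ^ 2 *
      H207.kc (1 / (T a : ℝ)) (npt (A a) (q a) i j l) (p3 (x a) (y a) (z a))) ?_)).congr fun a => ?_
  · refine PTR.mul (PTR.ringNpt hn hnb hA hAb hq hb hB hBb hbB) ?_
    refine (PTR.kc (PTR.coord (hA.comp a1) (hq.comp a1) i1) (PTR.coord (hA.comp a1) (hq.comp a1) j1)
      (PTR.coord (hA.comp a1) (hq.comp a1) l1) (hx.comp a1) (hy.comp a1) (hz.comp a1)
      (hT.comp a1) (fun _ => hT0 _)).congr fun p => ?_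
    rw [npt_eq]
  · congr 1
    exact (sum_grid (A a) (q a) (fun X => H115.ringC (n a) (b a) X ^ 2 *
      H207.kc (1 / (T a : ℝ)) X (p3 (x a) (y a) (z a)))).symm

/-- The grid sum of the charge integral. -/
theorem PTR.csum (hn : PT ∅ n) (hnb : PBd n) (hA : PT ∅ A) (hAb : PBd A) (hq : PT ∅ q)
    (hqb : PBd q) (hT : PT ∅ T) (hT0 : ∀ a, 0 < T a) {b b' : α → ℝ} (hb : PTR b) (hb' : PTR b')
    {B : α → ℕ} (hB : PT ∅ B) (hBb : PBd B) (hbB : ∀ a, |b a| ≤ B a) (hbB' : ∀ a, |b' a| ≤ B a) :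
    PTR (fun a => RF.csum (q a) (A a) (1 / (T a : ℝ)) (fun x => H115.ringC (n a) (b a) x ^ 2)
      (fun x => H115.ringC (n a) (b' a) x ^ 2)) := by
  have a1 : PT ∅ (fun p : ((α × Un) × Un) × Un => p.1.1.1) := PT.fst'.fst.fst
  have i1 : PT ∅ (fun p : ((α × Un) × Un) × Un => p.1.1.2.v) := PT.fst'.fst.snd.unVal
  have j1 : PT ∅ (fun p : ((α × Un) × Un) × Un => p.1.2.v) := PT.fst'.snd.unVal
  have l1 : PT ∅ (fun p : ((α × Un) × Un) × Un => p.2.v) := PT.snd'.unVal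
  have hq3 : PTR (fun a => (1 / (q a : ℝ)) ^ 3) :=
    ((PTR.ofFrac (PT.const 1) hq).powConst 3).congr fun a => by push_cast; rfl
  have hN : PT ∅ (fun a => 2 * (A a * q a)) := (PT.const 2).mul (hA.mul hq)
  have hNb : PBd (fun a => 2 * (A a * q a)) := (PBd.const 2).mul (hAb.mul hqb)
  refine (hq3.mul (PTR.sum3 hN hNb (F := fun a i j l =>
    H115.ringC (n a) (b' a) (npt (A a) (q a) i j l) ^ 2 *
      ((1 / (q a : ℝ)) ^ 3 * ∑ c ∈ grid (A a) (q a), H115.ringC (n a) (b a) (gpt (q a) c) ^ 2 *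
        H207.kc (1 / (T a : ℝ)) (gpt (q a) c) (npt (A a) (q a) i j l))) ?_)).congr fun a => ?_
  · refine PTR.mul (PTR.ringNpt hn hnb hA hAb hq hb' hB hBb hbB') ?_
    refine (PTR.potSum (α := ((α × Un) × Un) × Un) (hn.comp a1) (hnb.comp (A := ∅) a1)
      (hA.comp a1) (hAb.comp (A := ∅) a1) (hq.comp a1) (hqb.comp (A := ∅) a1) (hT.comp a1)
      (fun _ => hT0 _) (hb.comp a1) (hB.comp a1) (hBb.comp (A := ∅) a1) (fun _ => hbB _)
      (PTR.coord (hA.comp a1) (hq.comp a1) i1) (PTR.coord (hA.comp a1) (hq.comp a1) j1)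
      (PTR.coord (hA.comp a1) (hq.comp a1) l1)).congr fun p => ?_
    rw [npt_eq]
  · unfold RF.csum
    congr 1
    exact (sum_grid (A a) (q a) (fun Y => H115.ringC (n a) (b' a) Y ^ 2 *
      ((1 / (q a : ℝ)) ^ 3 * ∑ c ∈ grid (A a) (q a), H115.ringC (n a) (b a) (gpt (q a) c) ^ 2 *
        H207.kc (1 / (T a : ℝ)) (gpt (q a) c) Y))).symm

/-- **The charge integrals of two rings can be computed in polynomial time** (error `1/(k+1)`). -/
theorem PTW.dd (hn : PT ∅ n) (hnb : PBd n) (hn2 : ∀ a, 2 ≤ n a) {b b' : α → ℝ} (hb : PTR b)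
    (hb' : PTR b') {B : α → ℕ} (hB : PT ∅ B) (hBb : PBd B) (hbB : ∀ a, |b a| ≤ B a)
    (hbB' : ∀ a, |b' a| ≤ B a) :
    PTW (fun a => DD (fun x => H115.ringC (n a) (b' a) x ^ 2)
      (fun x => H115.ringC (n a) (b a) x ^ 2)) := by
  refine PTW.limit (F := fun a k => dsum (n a) (k + 1) (b' a) (b a)) (PTR.toPTW ?_) fun a k => ?_
  · have a1 : PT ∅ (fun p : α × Un => p.1) := PT.fst'
    have t1 : PT ∅ (fun p : α × Un => p.2.v + 1) := PT_precv.add (PT.const 1)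
    have t1b : PBd (fun p : α × Un => p.2.v + 1) := PBd_precv.add (PBd.const 1)
    have n1 : PT ∅ (fun p : α × Un => n p.1) := hn.comp a1
    have n1b : PBd (fun p : α × Un => n p.1) := hnb.comp (A := ∅) a1
    have hT : PT ∅ (fun p : α × Un => cT (n p.1) (p.2.v + 1)) := ((PT.const 58).mul n1).mul t1
    have hTb : PBd (fun p : α × Un => cT (n p.1) (p.2.v + 1)) := ((PBd.const 58).mul n1b).mul t1b
    have hA : PT ∅ (fun p : α × Un => cA (n p.1) (p.2.v + 1)) :=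
      ((PT.const 512).mul (n1.powConst 5)).mul hT
    have hAb : PBd (fun p : α × Un => cA (n p.1) (p.2.v + 1)) :=
      ((PBd.const 512).mul (n1b.pow 5)).mul hTb
    have hq : PT ∅ (fun p : α × Un => cq (n p.1) (p.2.v + 1)) :=
      ((PT.const 1280).mul (hA.powConst 6)).mul (hT.powConst 4)
    have hqb : PBd (fun p : α × Un => cq (n p.1) (p.2.v + 1)) :=
      ((PBd.const 1280).mul (hAb.pow 6)).mul (hTb.pow 4)
    exact PTR.csum n1 n1b hA hAb hq hqb hT
      (fun p => by have := hn2 p.1; unfold cT; positivity) (hb.comp a1) (hb'.comp a1)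
      (hB.comp a1) (hBb.comp (A := ∅) a1) (fun _ => hbB _) (fun _ => hbB' _)
  · have := dsum_err (hn2 a) (Nat.succ_pos k) (b' a) (b a)
    refine this.trans (le_of_eq ?_)
    push_cast
    rfl

/-- The angle of a ring. -/
theorem PTR.rang {m i : α → ℕ} (hm : PT ∅ m) (hi : PT ∅ i) : PTR (fun a => H115.rang (m a) (i a)) :=
  (PTR.pi.mul (PTR.ofFrac hi.natCast hm)).congr fun a => by
    unfold H115.rang
    push_cast
    ring

theorem abs_rang_le (m i : ℕ) : |rang m i| ≤ ((4 * i : ℕ) : ℝ) := by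
  unfold rang
  rw [abs_of_nonneg (by positivity)]
  push_cast
  have h0 : (0 : ℝ) ≤ i := by positivity
  rcases Nat.eq_zero_or_pos m with h | h
  · subst h
    simp
  · have h' : (1 : ℝ) ≤ m := by exact_mod_cast h
    rw [div_le_iff₀ (by linarith)]
    have h1 : Real.pi * i ≤ 4 * i := by
      have := Real.pi_le_four
      gcongr
    nlinarith

/-- **The charge matrix of the rings** `D_ij` **can be computed in polynomial time.** -/
theorem PTW.charge {m i j : α → ℕ} (hn : PT ∅ n) (hnb : PBd n) (hn2 : ∀ a, 2 ≤ n a)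
    (hm : PT ∅ m) (hi : PT ∅ i) (hib : PBd i) (hj : PT ∅ j) (hjb : PBd j) :
    PTW (fun a => DD (fun x => rC (n a) (m a) (i a) x ^ 2) (fun x => rC (n a) (m a) (j a) x ^ 2)) :=
  PTW.dd (b' := fun a => H115.rang (m a) (i a)) (b := fun a => H115.rang (m a) (j a)) hn hnb hn2
    (PTR.rang hm hj) (PTR.rang hm hi) (B := fun a => 4 * i a + 4 * j a)
    (((PT.const 4).mul hi).add ((PT.const 4).mul hj))
    (((PBd.const 4).mul hib).add ((PBd.const 4).mul hjb))
    (fun a => (abs_rang_le _ _).trans (by exact_mod_cast Nat.le_add_left _ _))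
    (fun a => (abs_rang_le _ _).trans (by exact_mod_cast Nat.le_add_right _ _))

end Vale.Agent.P370.H207
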