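import Mathlib
import Vale.Agent.P370.H98.R2aDefs

/-!
The gradients of the ring orbitals.
-/

namespace Vale.Agent.P370.H207

open Vale.Agent.P363.Stmt (R3)
open Vale.Agent.P370.H115 Vale.Agent.P370.H98
open scoped Topology

noncomputable section

/-! ### Calculus of gradients -/

theorem hasGrad_iff {f : R3 → ℝ} {g x : R3} :
    HasGradientAt f g x ↔ HasFDerivAt f (innerSL ℝ g) x := by
  rw [hasGradientAt_iff_hasFDerivAt]
  have : (InnerProductSpace.toDual ℝ R3) g = innerSL ℝ g := by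
    ext y
    simp [InnerProductSpace.toDual_apply_apply]
  rw [this]

theorem HasGrad.mul {f g : R3 → ℝ} {f' g' x : R3} (hf : HasGradientAt f f' x)
    (hg : HasGradientAt g g' x) : HasGradientAt (fun y => f y * g y) (f x • g' + g x • f') x := by
  rw [hasGrad_iff] at *
  refine (hf.mul hg).congr_fderiv ?_
  ext y
  simp

theorem HasGrad.add {f g : R3 → ℝ} {f' g' x : R3} (hf : HasGradientAt f f' x)
    (hg : HasGradientAt g g' x) : HasGradientAt (fun y => f y + g y) (f' + g') x := by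
  rw [hasGrad_iff] at *
  refine (hf.add hg).congr_fderiv ?_
  ext y
  simp

theorem HasGrad.sub {f g : R3 → ℝ} {f' g' x : R3} (hf : HasGradientAt f f' x)
    (hg : HasGradientAt g g' x) : HasGradientAt (fun y => f y - g y) (f' - g') x := by
  rw [hasGrad_iff] at *
  refine (hf.sub hg).congr_fderiv ?_
  ext y
  simp

theorem HasGrad.neg {f : R3 → ℝ} {f' x : R3} (hf : HasGradientAt f f' x) :
    HasGradientAt (fun y => -f y) (-f') x := by
  rw [hasGrad_iff] at *
  refine hf.neg.congr_fderiv ?_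
  ext y
  simp

theorem HasGrad.const_mul {f : R3 → ℝ} {f' x : R3} (hf : HasGradientAt f f' x) (c : ℝ) :
    HasGradientAt (fun y => c * f y) (c • f') x := by
  rw [hasGrad_iff] at *
  refine (hf.const_mul c).congr_fderiv ?_
  ext y
  simp

theorem HasGrad.sum {ι : Type*} (s : Finset ι) {f : ι → R3 → ℝ} {f' : ι → R3} {x : R3}
    (hf : ∀ i ∈ s, HasGradientAt (f i) (f' i) x) :
    HasGradientAt (fun y => ∑ i ∈ s, f i y) (∑ i ∈ s, f' i) x := by
  classical
  rw [hasGrad_iff]
  have h : HasFDerivAt (fun y => ∑ i ∈ s, f i y) (∑ i ∈ s, innerSL ℝ (f' i)) x :=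
    HasFDerivAt.fun_sum fun i hi => hasGrad_iff.1 (hf i hi)
  refine h.congr_fderiv ?_
  rw [map_sum]

/-! ### The coordinate `ζ·x` -/

/-- `ζ_a · x` as a linear map -/
def zl (a : ℝ) : R3 →L[ℝ] ℂ :=
  (innerSL ℝ (ez : R3)).smulRight (1 : ℂ) + (innerSL ℝ (wvec a)).smulRight Complex.I

theorem inner_ez (x : R3) : inner ℝ (ez : R3) x = x 2 := by
  simp [ez, PiLp.inner_apply, Fin.sum_univ_three]

theorem inner_wvec (a : ℝ) (x : R3) :
    inner ℝ (wvec a) x = -Real.sin a * x 0 + Real.cos a * x 1 := by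
  simp [wvec, PiLp.inner_apply, Fin.sum_univ_three]
  ring

theorem smul_one_add_smul_I (r s : ℝ) : r • (1 : ℂ) + s • Complex.I = ⟨r, s⟩ := by
  apply Complex.ext <;> simp

theorem zl_apply (a : ℝ) (x : R3) : zl a x = zet a x := by
  simp only [zl, add_apply, ContinuousLinearMap.smulRight_apply,
    innerSL_apply_apply, inner_ez, inner_wvec, zet]
  exact smul_one_add_smul_I _ _

theorem hasFDerivAt_zet (a : ℝ) (x : R3) : HasFDerivAt (zet a) (zl a) x := by
  have h := (zl a).hasFDerivAt (x := x)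
  have e : (fun y => zl a y) = zet a := funext fun y => zl_apply a y
  rw [← e]
  exact h

theorem hasFDerivAt_zet_pow (a : ℝ) (x : R3) (k : ℕ) :
    HasFDerivAt (fun y => zet a y ^ k) (((k : ℂ) * zet a x ^ (k - 1)) • zl a) x := by
  refine ((hasFDerivAt_zet a x).pow k).congr_fderiv ?_
  ext y
  simp [nsmul_eq_mul]

theorem hasFDerivAt_norm' {x : R3} (hx : x ≠ 0) :
    HasFDerivAt (fun y : R3 => ‖y‖) (innerSL ℝ ((1 / ‖x‖) • x)) x := by
  have h1 : HasFDerivAt (fun y : R3 => √(‖y‖ ^ 2)) ((1 / (2 * √(‖x‖ ^ 2))) • (2 • innerSL ℝ x)) x :=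
    (hasStrictFDerivAt_norm_sq x).hasFDerivAt.sqrt (by positivity)
  have e : (fun y : R3 => √(‖y‖ ^ 2)) = fun y => ‖y‖ := funext fun y => Real.sqrt_sq (norm_nonneg y)
  rw [e] at h1
  refine h1.congr_fderiv ?_
  rw [Real.sqrt_sq (norm_nonneg x)]
  ext y
  simp
  ring

theorem hasFDerivAt_expNorm (n : ℕ) {x : R3} (hx : x ≠ 0) :
    HasFDerivAt (fun y : R3 => Real.exp (-‖y‖ / n))
      (innerSL ℝ ((-(Real.exp (-‖x‖ / n)) / (n * ‖x‖)) • x)) x := by
  have h1 : HasFDerivAt (fun y : R3 => -‖y‖ / (n : ℝ)) ((1 / (n : ℝ)) • -(innerSL ℝ ((1 / ‖x‖) • x))) x := by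
    have := ((hasFDerivAt_norm' hx).neg).const_mul (1 / (n : ℝ))
    refine this.congr_of_eventuallyEq (Filter.Eventually.of_forall fun y => ?_)
    simp only [Pi.neg_apply]
    ring
  refine h1.exp.congr_fderiv ?_
  ext y
  simp
  ring

/-- gradient of the real part of `c ζ^k e^{-r/n}` -/
theorem hasGradientAt_re {n : ℕ} (a : ℝ) {x : R3} (hx : x ≠ 0) (c : ℂ) (k : ℕ) :
    HasGradientAt (fun y => (c * zet a y ^ k).re * Real.exp (-‖y‖ / n))
      (Real.exp (-‖x‖ / n) • ((k : ℝ) • ((c * zet a x ^ (k - 1)).re • ez -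
        (c * zet a x ^ (k - 1)).im • wvec a) - ((c * zet a x ^ k).re / (n * ‖x‖)) • x)) x := by
  rw [hasGrad_iff]
  have h1 : HasFDerivAt (fun y => (c * zet a y ^ k).re)
      (Complex.reCLM.comp (c • (((k : ℂ) * zet a x ^ (k - 1)) • zl a))) x :=
    Complex.reCLM.hasFDerivAt.comp x ((hasFDerivAt_zet_pow a x k).const_mul c)
  refine (h1.mul (hasFDerivAt_expNorm n hx)).congr_fderiv ?_
  ext y
  simp only [add_apply, smul_apply, innerSL_apply_apply,
    ContinuousLinearMap.comp_apply, Complex.reCLM_apply, zl_apply, smul_eq_mul, inner_smul_left,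
    inner_sub_left, inner_ez, inner_wvec, conj_trivial]
  have e : (c * ((k : ℂ) * zet a x ^ (k - 1) * zet a y)).re =
      k * ((c * zet a x ^ (k - 1)).re * (zet a y).re - (c * zet a x ^ (k - 1)).im * (zet a y).im) := by
    have : c * ((k : ℂ) * zet a x ^ (k - 1) * zet a y) =
        ((k : ℝ) : ℂ) * ((c * zet a x ^ (k - 1)) * zet a y) := by
      push_cast
      ring
    rw [this, Complex.re_ofReal_mul, Complex.mul_re (c * zet a x ^ (k - 1))]
  rw [e]
  have e1 : (zet a y).re = y 2 := rfl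
  have e2 : (zet a y).im = -Real.sin a * y 0 + Real.cos a * y 1 := rfl
  rw [e1, e2]
  ring

theorem hasGradientAt_ringC_ne {n : ℕ} (hn : 2 ≤ n) (a : ℝ) {x : R3} (hx : x ≠ 0) :
    HasGradientAt (ringC n a) (gradC n a x) x := by
  have h := HasGrad.const_mul (hasGradientAt_re (n := n) a hx 1 (n - 1)) (cn n)
  have e1 : (fun y => cn n * (((1 : ℂ) * zet a y ^ (n - 1)).re * Real.exp (-‖y‖ / n))) =
      ringC n a := by
    funext y
    unfold ringC
    rw [one_mul]
    ring
  rw [e1] at h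
  convert h using 1
  unfold gradC
  rw [one_mul, one_mul, smul_smul, show n - 1 - 1 = n - 2 by omega, Nat.cast_sub (by omega : 1 ≤ n)]
  push_cast
  rfl

theorem hasGradientAt_ringS_ne {n : ℕ} (hn : 2 ≤ n) (a : ℝ) {x : R3} (hx : x ≠ 0) :
    HasGradientAt (ringS n a) (gradS n a x) x := by
  have h := HasGrad.const_mul (hasGradientAt_re (n := n) a hx (-Complex.I) (n - 1)) (cn n)
  have e0 : ∀ z : ℂ, (-Complex.I * z).re = z.im := fun z => by simp
  have e0' : ∀ z : ℂ, (-Complex.I * z).im = -z.re := fun z => by simp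
  have e1 : (fun y => cn n * ((-Complex.I * zet a y ^ (n - 1)).re * Real.exp (-‖y‖ / n))) =
      ringS n a := by
    funext y
    unfold ringS
    rw [e0]
    ring
  rw [e1] at h
  convert h using 1
  unfold gradS
  rw [e0, e0, e0', smul_smul, show n - 1 - 1 = n - 2 by omega, Nat.cast_sub (by omega : 1 ≤ n),
    neg_smul, sub_neg_eq_add]
  push_cast
  rfl

theorem zet_zero (a : ℝ) : zet a 0 = 0 := by
  apply Complex.ext <;> simp [zet]

theorem norm_zet_le' (a : ℝ) (x : R3) : ‖zet a x‖ ≤ ‖x‖ := by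
  rw [EuclideanSpace.norm_eq, Complex.norm_eq_sqrt_sq_add_sq]
  apply Real.sqrt_le_sqrt
  simp only [zet, Fin.sum_univ_three, Real.norm_eq_abs, sq_abs]
  nlinarith [Real.sin_sq_add_cos_sq a, sq_nonneg (Real.cos a * x 0 + Real.sin a * x 1),
    sq_nonneg (x 0), sq_nonneg (x 1)]

/-- a function which is at most `C ‖x‖²` near `0` has gradient `0` there -/
theorem hasGradientAt_zero_of_le {f : R3 → ℝ} {C : ℝ} (h : ∀ x, ‖x‖ ≤ 1 → |f x| ≤ C * ‖x‖ ^ 2) :
    HasGradientAt f 0 0 := by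
  rw [hasGrad_iff, map_zero]
  refine Asymptotics.IsBigO.hasFDerivAt (n := 2) ?_ (by norm_num)
  refine Asymptotics.IsBigO.of_bound C ?_
  filter_upwards [Metric.closedBall_mem_nhds (0 : R3) one_pos] with x hx
  rw [sub_zero, Real.norm_eq_abs, Real.norm_of_nonneg (by positivity)]
  exact h x (by simpa using hx)

theorem ring_small {n : ℕ} (hn : 3 ≤ n) (a : ℝ) (x : R3) (hx : ‖x‖ ≤ 1) :
    ‖zet a x ^ (n - 1)‖ * Real.exp (-‖x‖ / n) ≤ ‖x‖ ^ 2 := by
  have h1 : ‖zet a x ^ (n - 1)‖ ≤ ‖x‖ ^ 2 := by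
    rw [norm_pow]
    calc ‖zet a x‖ ^ (n - 1) ≤ ‖x‖ ^ (n - 1) := by
          gcongr
          exact norm_zet_le' a x
      _ ≤ ‖x‖ ^ 2 := pow_le_pow_of_le_one (norm_nonneg x) hx (by omega)
  have h2 : Real.exp (-‖x‖ / n) ≤ 1 := by
    rw [Real.exp_le_one_iff, neg_div]
    exact neg_nonpos.2 (by positivity)
  calc _ ≤ ‖x‖ ^ 2 * 1 := mul_le_mul h1 h2 (Real.exp_pos _).le (by positivity)
    _ = _ := mul_one _

theorem gradC_zero {n : ℕ} (hn : 3 ≤ n) (a : ℝ) : gradC n a 0 = 0 := by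
  unfold gradC
  rw [zet_zero, zero_pow (by omega)]
  simp

theorem gradS_zero {n : ℕ} (hn : 3 ≤ n) (a : ℝ) : gradS n a 0 = 0 := by
  unfold gradS
  rw [zet_zero, zero_pow (by omega)]
  simp

/-- **gradient of `ringC`** at every point -/
theorem hasGradientAt_ringC {n : ℕ} (hn : 3 ≤ n) (a : ℝ) (x : R3) :
    HasGradientAt (ringC n a) (gradC n a x) x := by
  by_cases hx : x = 0
  · subst hx
    rw [gradC_zero hn]
    refine hasGradientAt_zero_of_le (C := |cn n|) fun x hx => ?_
    unfold ringC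
    rw [mul_assoc, abs_mul]
    refine mul_le_mul_of_nonneg_left ?_ (abs_nonneg _)
    rw [abs_mul, abs_of_pos (Real.exp_pos _)]
    refine le_trans ?_ (ring_small hn a x hx)
    exact mul_le_mul_of_nonneg_right (Complex.abs_re_le_norm _) (Real.exp_pos _).le
  · exact hasGradientAt_ringC_ne (by omega) a hx

/-- **gradient of `ringS`** at every point -/
theorem hasGradientAt_ringS {n : ℕ} (hn : 3 ≤ n) (a : ℝ) (x : R3) :
    HasGradientAt (ringS n a) (gradS n a x) x := by
  by_cases hx : x = 0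
  · subst hx
    rw [gradS_zero hn]
    refine hasGradientAt_zero_of_le (C := |cn n|) fun x hx => ?_
    unfold ringS
    rw [mul_assoc, abs_mul]
    refine mul_le_mul_of_nonneg_left ?_ (abs_nonneg _)
    rw [abs_mul, abs_of_pos (Real.exp_pos _)]
    refine le_trans ?_ (ring_small hn a x hx)
    exact mul_le_mul_of_nonneg_right (Complex.abs_im_le_norm _) (Real.exp_pos _).le
  · exact hasGradientAt_ringS_ne (by omega) a hx

/-- gradient of the selection potential -/
theorem hasGradientAt_uS {n : ℕ} (hn : 3 ≤ n) (m : ℕ) (S : ℝ) (x : R3) :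
    HasGradientAt (uS n m S) (gUS n m S x) x := by
  unfold uS gUS
  refine HasGrad.const_mul (HasGrad.sum _ fun i _ => ?_) _
  have h1 := HasGrad.mul (hasGradientAt_ringC hn (rang m i) x) (hasGradientAt_ringC hn (rang m i) x)
  have h2 := HasGrad.mul (hasGradientAt_ringS hn (rang m i) x) (hasGradientAt_ringS hn (rang m i) x)
  have h := HasGrad.sub h1 h2
  have e : (fun y => ringC n (rang m i) y * ringC n (rang m i) y -
      ringS n (rang m i) y * ringS n (rang m i) y) = fun y => rC n m i y ^ 2 - rS n m i y ^ 2 := by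
    funext y
    unfold rC rS
    ring
  rw [e] at h
  convert h using 1
  unfold rC rS
  rw [two_mul, two_mul, add_smul, add_smul]

/-- gradient of the hopping potential -/
theorem hasGradientAt_uT {n : ℕ} (hn : 3 ≤ n) (m : ℕ) (T : ℕ → ℕ → ℝ) (x : R3) :
    HasGradientAt (uT n m T) (gUT n m T x) x := by
  unfold uT gUT
  refine HasGrad.neg (HasGrad.sum _ fun b _ => HasGrad.sum _ fun a _ => ?_)
  refine HasGrad.const_mul ?_ _
  have h := HasGrad.mul (hasGradientAt_ringC hn (rang m a) x) (hasGradientAt_ringC hn (rang m b) x)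
  rw [add_comm] at h
  exact h

end

end Vale.Agent.P370.H207
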