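import Vale.Agent.P370.H207.Grad
import Vale.Agent.P370.H305.Steps
import Vale.Agent.P370.H115.Kap
import Vale.Agent.P370.H890.Pair

/-!
P370, line Q, step ST6: the programmed potential of `Iface` is that of `H98`, with its gradient.
-/

namespace Vale.Agent.P370.H207

open Vale.Agent.P363.Stmt (R3)
open Vale.Agent.P370.H115 Vale.Agent.P370.H98
open Finset

theorem kap_pos {n : ℕ} (hn : 2 ≤ n) : 0 < H98.kap n := by
  have h := (kap_stmt n hn).2.1
  have hn' : (0 : ℝ) < n := by positivity
  have := Real.pi_pos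
  exact lt_of_lt_of_le (by positivity) h

theorem Mm_eq (n m a b : ℕ) : H305.Mm n m a b = Mab n m a b := by
  unfold H305.Mm Mab M4 H305.rho rC
  congr 1
  ext x
  ring

theorem Mab_pos {n : ℕ} (hn : 2 ≤ n) (m a b : ℕ) : 0 < Mab n m a b := by
  have h := H890.pair_stmt n m a b hn
  have hn' : (0 : ℝ) < n := by positivity
  exact lt_of_lt_of_le (by positivity) h

theorem sum_lt_eq (m : ℕ) (F : ℕ → ℕ → ℝ) :
    ∑ i ∈ range m, ∑ j ∈ range m, (if i < j then F i j else 0) =
      ∑ b ∈ range m, ∑ a ∈ range b, F a b := by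
  rw [Finset.sum_comm]
  refine Finset.sum_congr rfl fun b hb => ?_
  rw [← Finset.sum_filter]
  refine Finset.sum_congr ?_ fun _ _ => rfl
  ext a
  simp only [mem_filter, mem_range] at *
  omega

theorem uD_eq {n : ℕ} (hn : 2 ≤ n) (m : ℕ) (σ : ℝ) (τ : ℕ → ℕ → ℝ) (x : R3) :
    H305.uD n m σ τ x = uS n m (σ * H305.kap n) x +
      uT n m (fun a b => τ a b * H305.Mm n m a b) x := by
  have hk : H305.kap n = H98.kap n := rfl
  have hk0 := (kap_pos hn).ne'
  unfold H305.uD uS uT
  rw [hk, mul_div_cancel_right₀ _ hk0, sum_lt_eq m (fun i j => τ i j * (rC n m i x * rC n m j x)),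
    neg_mul, sub_eq_add_neg]
  congr 2
  refine Finset.sum_congr rfl fun b _ => Finset.sum_congr rfl fun a _ => ?_
  show τ a b * (rC n m a x * rC n m b x) =
    τ a b * H305.Mm n m a b / Mab n m a b * (rC n m a x * rC n m b x)
  rw [Mm_eq, mul_div_cancel_right₀ _ (Mab_pos hn m a b).ne']

theorem udStmt : H305.UDStmt := by
  intro n m σ τ hn
  refine ⟨fun x => uD_eq (by omega) m σ τ x, fun x => ?_⟩
  have h1 := HasGrad.add (hasGradientAt_uS (n := n) (by omega) m (σ * H305.kap n) x)
    (hasGradientAt_uT (n := n) (by omega) m (fun a b => τ a b * H305.Mm n m a b) x)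
  have e : (fun y => uS n m (σ * H305.kap n) y + uT n m (fun a b => τ a b * H305.Mm n m a b) y) =
      H305.uD n m σ τ := by
    funext y
    exact (uD_eq (by omega) m σ τ y).symm
  rw [e] at h1
  exact h1.gradient

end Vale.Agent.P370.H207
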