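import Vale.Agent.P370.H207.PInputs
import Vale.Agent.P370.H207.UD
import Vale.Agent.P370.H855.ProgB

/-!
P370, line Q, input (I2) of the program: the gradient of the programmed potential is computable at
computable points different from the origin, and vanishes at the origin.
-/

namespace Vale.Agent.P370.H207

open Vale.Agent.Lib.PolyTime Function
open Vale.Agent.P370.H855 Vale.Agent.P370.H115 Vale.Agent.P363.R.H10
open Vale.Agent.P370.H98 (gradC gradS ez gUS gUT)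

variable {α : Type*} [Enc α]

theorem sum_coord {ι : Type*} (s : Finset ι) (f : ι → R3) (j : Fin 3) :
    (∑ i ∈ s, f i) j = ∑ i ∈ s, f i j := by
  classical
  induction s using Finset.induction_on with
  | empty => simp
  | insert a s ha ih => rw [Finset.sum_insert ha, Finset.sum_insert ha, PiLp.add_apply, ih]

theorem gradC_coord (n : ℕ) (a : ℝ) (x : R3) (j : Fin 3) : gradC n a x j =
    (cn n * Real.exp (-‖x‖ / n)) *
      (((n : ℝ) - 1) * (((zet a x) ^ (n - 2)).re * ez j - ((zet a x) ^ (n - 2)).im * wvec a j)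
        - (((zet a x) ^ (n - 1)).re / (n * ‖x‖)) * x j) := by
  simp only [gradC, PiLp.smul_apply, PiLp.sub_apply, smul_eq_mul]

theorem gradS_coord (n : ℕ) (a : ℝ) (x : R3) (j : Fin 3) : gradS n a x j =
    (cn n * Real.exp (-‖x‖ / n)) *
      (((n : ℝ) - 1) * (((zet a x) ^ (n - 2)).im * ez j + ((zet a x) ^ (n - 2)).re * wvec a j)
        - (((zet a x) ^ (n - 1)).im / (n * ‖x‖)) * x j) := by
  simp only [gradS, PiLp.smul_apply, PiLp.sub_apply, PiLp.add_apply, smul_eq_mul]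

/-- the gradient of the programmed potential, by coordinates -/
theorem grad_uD_coord {n : ℕ} (hn : 4 ≤ n) (m : ℕ) (σ : ℝ) (τ : ℕ → ℕ → ℝ) (x : R3) (j : Fin 3) :
    (gradient (H305.uD n m σ τ) x) j =
      -σ * (∑ i ∈ Finset.range m,
        (2 * rC n m i x * gradC n (rang m i) x j - 2 * rS n m i x * gradS n (rang m i) x j)) -
      ∑ b ∈ Finset.range m, ∑ a ∈ Finset.range b, τ a b *
        (rC n m b x * gradC n (rang m a) x j + rC n m a x * gradC n (rang m b) x j) := by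
  rw [(udStmt n m σ τ hn).2 x]
  have hk : H305.kap n = H98.kap n := rfl
  have hk0 := (kap_pos (by omega : 2 ≤ n)).ne'
  unfold gUS gUT
  rw [hk, mul_div_cancel_right₀ _ hk0, PiLp.add_apply, PiLp.neg_apply, PiLp.smul_apply,
    sum_coord, sum_coord, smul_eq_mul, ← sub_eq_add_neg]
  congr 1
  refine Finset.sum_congr rfl fun b _ => ?_
  rw [sum_coord]
  refine Finset.sum_congr rfl fun a _ => ?_
  beta_reduce
  rw [Mm_eq, mul_div_cancel_right₀ _ (Mab_pos (by omega : 2 ≤ n) m a b).ne']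
  simp only [PiLp.smul_apply, PiLp.add_apply, smul_eq_mul]

variable {n m i : α → ℕ} {X : α → R3} {Bd c : α → ℕ}

theorem PTR_ez (j : Fin 3) : PTR (fun _ : α => ez j) := by
  fin_cases j
  · exact PTR.zero.congr fun _ => by simp [ez]
  · exact PTR.zero.congr fun _ => by simp [ez]
  · exact PTR.one.congr fun _ => by simp [ez]

theorem PTR_wvec (hm : PT ∅ m) (hi : PT ∅ i) (hib : PBd i) (j : Fin 3) :
    PTR (fun x => wvec (rang (m x) (i x)) j) := by
  fin_cases j
  · exact (PTR_sin_rang hm hi hib).neg.congr fun _ => by simp [wvec]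
  · exact (PTR_cos_rang hm hi hib).congr fun _ => by simp [wvec]
  · exact PTR.zero.congr fun _ => by simp [wvec]

theorem PTR_inv_norm (hn : PT ∅ n) (hn1 : ∀ x, 1 ≤ n x) (hX : ∀ j, PTR (fun x => X x j))
    {f : α → ℝ} (hf : PTR f) (hc : PT ∅ c) (hcb : PBd c) (hX0 : ∀ a, 1 / 2 ^ c a ≤ ‖X a‖) :
    PTR (fun x => f x / (n x * ‖X x‖)) :=
  PTR.div hf ((PTR.ofNat hn).mul (PTR_norm hX)) hc hcb fun a => by
    rw [abs_of_nonneg (by positivity)]
    have h1 : (1 : ℝ) ≤ n a := by exact_mod_cast hn1 a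
    exact (hX0 a).trans (le_mul_of_one_le_left (norm_nonneg _) h1)

theorem coord_le {x : R3} {B : ℝ} (h : ‖x‖ ≤ B) (j : Fin 3) : |x j| ≤ B :=
  (H855.abs_le_norm x j).trans h

theorem PTR_gradC (hn : PT ∅ n) (hnb : PBd n) (hn1 : ∀ x, 1 ≤ n x) (hm : PT ∅ m) (hi : PT ∅ i)
    (hib : PBd i) (hX : ∀ j, PTR (fun x => X x j)) (hB : PT ∅ Bd) (hBb : PBd Bd)
    (hb : ∀ x, ‖X x‖ ≤ Bd x) (hc : PT ∅ c) (hcb : PBd c) (hX0 : ∀ a, 1 / 2 ^ c a ≤ ‖X a‖)
    (j : Fin 3) : PTR (fun x => gradC (n x) (rang (m x) (i x)) (X x) j) := by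
  have h2 : PT ∅ (fun x => n x - 2) := hn.sub (PT.const 2)
  have h2b : PBd (fun x => n x - 2) := hnb.mono fun _ => Nat.sub_le _ _
  have h1 : PT ∅ (fun x => n x - 1) := hn.sub (PT.const 1)
  have h1b : PBd (fun x => n x - 1) := hnb.mono fun _ => Nat.sub_le _ _
  exact ((((PTR.cn hn hnb).mul (PTR_expNorm hn hX hB hBb fun x j => coord_le (hb x) j))).mul
    ((((PTR.ofNat hn).sub PTR.one).mul (((PTR_zet_re hm hi hib hX h2 h2b).mul (PTR_ez j)).sub
      ((PTR_zet_im hm hi hib hX h2 h2b).mul (PTR_wvec hm hi hib j)))).sub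
      ((PTR_inv_norm hn hn1 hX (PTR_zet_re hm hi hib hX h1 h1b) hc hcb hX0).mul (hX j)))).congr
    fun x => (gradC_coord _ _ _ _).symm

theorem PTR_gradS (hn : PT ∅ n) (hnb : PBd n) (hn1 : ∀ x, 1 ≤ n x) (hm : PT ∅ m) (hi : PT ∅ i)
    (hib : PBd i) (hX : ∀ j, PTR (fun x => X x j)) (hB : PT ∅ Bd) (hBb : PBd Bd)
    (hb : ∀ x, ‖X x‖ ≤ Bd x) (hc : PT ∅ c) (hcb : PBd c) (hX0 : ∀ a, 1 / 2 ^ c a ≤ ‖X a‖)
    (j : Fin 3) : PTR (fun x => gradS (n x) (rang (m x) (i x)) (X x) j) := by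
  have h2 : PT ∅ (fun x => n x - 2) := hn.sub (PT.const 2)
  have h2b : PBd (fun x => n x - 2) := hnb.mono fun _ => Nat.sub_le _ _
  have h1 : PT ∅ (fun x => n x - 1) := hn.sub (PT.const 1)
  have h1b : PBd (fun x => n x - 1) := hnb.mono fun _ => Nat.sub_le _ _
  exact ((((PTR.cn hn hnb).mul (PTR_expNorm hn hX hB hBb fun x j => coord_le (hb x) j))).mul
    ((((PTR.ofNat hn).sub PTR.one).mul (((PTR_zet_im hm hi hib hX h2 h2b).mul (PTR_ez j)).add
      ((PTR_zet_re hm hi hib hX h2 h2b).mul (PTR_wvec hm hi hib j)))).sub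
      ((PTR_inv_norm hn hn1 hX (PTR_zet_im hm hi hib hX h1 h1b) hc hcb hX0).mul (hX j)))).congr
    fun x => (gradS_coord _ _ _ _).symm

/-- the gradient vanishes at the origin -/
theorem gradZero : H855.GradZero := by
  intro n m σ τ hn
  rw [(udStmt n m σ τ hn).2 0]
  unfold gUS gUT
  simp only [gradC_zero (by omega : 3 ≤ n), gradS_zero (by omega : 3 ≤ n), smul_zero, sub_zero,
    add_zero, Finset.sum_const_zero, neg_zero]

/-- **(I2)** -/
theorem gradPTR : H855.GradPTR := by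
  intro α _ n m sg ta X Bd c hn hnb hn4 hm hmb hsg hta hX hB hBb hXB hc hcb hX0 j
  have hn1 : ∀ a, 1 ≤ n a := fun a => by have := hn4 a; omega
  have q1 : PT ∅ (fun p : α × Un => p.1) := PT.fst'
  have c1 : ∀ p : α × Un, 1 / 2 ^ c p.1 ≤ ‖X p.1‖ := fun p => hX0 p.1
  have hX1 : ∀ j, PTR (fun p : α × Un => X p.1 j) := fun j => (hX j).comp q1
  have bd : ∀ p : α × Un, ‖X p.1‖ ≤ (Bd p.1 : ℕ) := fun p => hXB p.1
  -- the first sum
  have s1 : PTR (fun a => ∑ i ∈ Finset.range (m a),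
      (2 * rC (n a) (m a) i (X a) * gradC (n a) (rang (m a) i) (X a) j -
        2 * rS (n a) (m a) i (X a) * gradS (n a) (rang (m a) i) (X a) j)) := by
    refine PTR.sumUn hm hmb (F := fun a i =>
      (2 * rC (n a) (m a) i (X a) * gradC (n a) (rang (m a) i) (X a) j -
        2 * rS (n a) (m a) i (X a) * gradS (n a) (rang (m a) i) (X a) j)) ?_
    have hC := PTR_ringC (α := α × Un) (hn.comp q1) (hnb.comp (A := ∅) q1) (hm.comp q1) PT_precv
      PBd_precv hX1 (hB.comp q1) (hBb.comp (A := ∅) q1) fun p j => coord_le (bd p) j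
    have hS := PTR_ringS (α := α × Un) (hn.comp q1) (hnb.comp (A := ∅) q1) (hm.comp q1) PT_precv
      PBd_precv hX1 (hB.comp q1) (hBb.comp (A := ∅) q1) fun p j => coord_le (bd p) j
    have gC := PTR_gradC (α := α × Un) (hn.comp q1) (hnb.comp (A := ∅) q1) (fun p => hn1 p.1)
      (hm.comp q1) PT_precv PBd_precv hX1 (hB.comp q1) (hBb.comp (A := ∅) q1) bd (hc.comp q1)
      (hcb.comp (A := ∅) q1) c1 j
    have gS := PTR_gradS (α := α × Un) (hn.comp q1) (hnb.comp (A := ∅) q1) (fun p => hn1 p.1)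
      (hm.comp q1) PT_precv PBd_precv hX1 (hB.comp q1) (hBb.comp (A := ∅) q1) bd (hc.comp q1)
      (hcb.comp (A := ∅) q1) c1 j
    exact ((((PTR.constNat 2).mul hC).mul gC).sub (((PTR.constNat 2).mul hS).mul gS)).congr
      fun p => by simp only [rC, rS, Nat.cast_ofNat]
  -- the second sum
  have q2 : PT ∅ (fun p : (α × Un) × Un => p.1.1) := PT.fst'.fst
  have qi : PT ∅ (fun p : (α × Un) × Un => p.1.2.v) := (PT.fst'.snd).unVal
  have qib : PBd (fun p : (α × Un) × Un => p.1.2.v) := PBd.unVal (A := ∅) PT.fst'.snd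
  have qk : PT ∅ (fun p : (α × Un) × Un => p.2.v) := PT_precv
  have qkb : PBd (fun p : (α × Un) × Un => p.2.v) := PBd_precv
  have c2 : ∀ p : (α × Un) × Un, 1 / 2 ^ c p.1.1 ≤ ‖X p.1.1‖ := fun p => hX0 p.1.1
  have hX2 : ∀ j, PTR (fun p : (α × Un) × Un => X p.1.1 j) := fun j => (hX j).comp q2
  have bd2 : ∀ p : (α × Un) × Un, ‖X p.1.1‖ ≤ (Bd p.1.1 : ℕ) := fun p => hXB p.1.1
  have s2 : PTR (fun a => ∑ b ∈ Finset.range (m a), ∑ i ∈ Finset.range b, (ta a i b : ℝ) *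
      (rC (n a) (m a) b (X a) * gradC (n a) (rang (m a) i) (X a) j +
        rC (n a) (m a) i (X a) * gradC (n a) (rang (m a) b) (X a) j)) := by
    refine PTR.sumUn hm hmb (F := fun a b => ∑ i ∈ Finset.range b, (ta a i b : ℝ) *
      (rC (n a) (m a) b (X a) * gradC (n a) (rang (m a) i) (X a) j +
        rC (n a) (m a) i (X a) * gradC (n a) (rang (m a) b) (X a) j)) ?_
    refine PTR.sumUn (α := α × Un) PT_precv PBd_precv (F := fun p i => (ta p.1 i p.2.v : ℝ) *
      (rC (n p.1) (m p.1) p.2.v (X p.1) * gradC (n p.1) (rang (m p.1) i) (X p.1) j +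
        rC (n p.1) (m p.1) i (X p.1) * gradC (n p.1) (rang (m p.1) p.2.v) (X p.1) j)) ?_
    have hCb := PTR_ringC (α := (α × Un) × Un) (hn.comp q2) (hnb.comp (A := ∅) q2) (hm.comp q2) qi
      qib hX2 (hB.comp q2) (hBb.comp (A := ∅) q2) fun p j => coord_le (bd2 p) j
    have hCi := PTR_ringC (α := (α × Un) × Un) (hn.comp q2) (hnb.comp (A := ∅) q2) (hm.comp q2) qk
      qkb hX2 (hB.comp q2) (hBb.comp (A := ∅) q2) fun p j => coord_le (bd2 p) j
    have gCb := PTR_gradC (α := (α × Un) × Un) (hn.comp q2) (hnb.comp (A := ∅) q2)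
      (fun p => hn1 p.1.1) (hm.comp q2) qi qib hX2 (hB.comp q2) (hBb.comp (A := ∅) q2) bd2
      (hc.comp q2) (hcb.comp (A := ∅) q2) c2 j
    have gCi := PTR_gradC (α := (α × Un) × Un) (hn.comp q2) (hnb.comp (A := ∅) q2)
      (fun p => hn1 p.1.1) (hm.comp q2) qk qkb hX2 (hB.comp q2) (hBb.comp (A := ∅) q2) bd2
      (hc.comp q2) (hcb.comp (A := ∅) q2) c2 j
    have ht : PT ∅ (fun p : (α × Un) × Un => ta p.1.1 p.2.v p.1.2.v) :=
      (hta.comp (q2.pair (PT.snd'.pair PT.fst'.snd))).congr fun _ => rfl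
    exact ((PTR.ofRat ht).mul ((hCb.mul gCi).add (hCi.mul gCb))).congr fun p => by
      simp only [rC]
  exact (((PTR.ofRat hsg).neg.mul s1).sub s2).congr fun a =>
    (grad_uD_coord (hn4 a) (m a) (sg a) (fun i k => (ta a i k : ℝ)) (X a) j).symm

end Vale.Agent.P370.H207
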