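import Vale.Agent.P370.H305.Steps

/-!
P370, line Q, step ST7: the Heisenberg form by multiplicities, and the effective form of the Mott
block.
-/

namespace Vale.Agent.P370.H207

open Finset

theorem count_step {D : ℕ} (e : ℕ × ℕ) (h1 : e.1 < D) (h2 : e.2 < D) (h : e.1 < e.2)
    (F : Fin D → Fin D → ℝ) :
    ∑ a : Fin D, ∑ b : Fin D,
      (if a < b then (if e = ((a : ℕ), (b : ℕ)) then 1 else 0) * F a b else 0) =
      F ⟨e.1, h1⟩ ⟨e.2, h2⟩ := by
  rw [Finset.sum_eq_single (⟨e.1, h1⟩ : Fin D), Finset.sum_eq_single (⟨e.2, h2⟩ : Fin D)]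
  · rw [if_pos (by simpa [Fin.lt_def] using h), if_pos (by simp), one_mul]
  · intro b _ hb
    rw [if_neg (c := e = _)]
    · simp
    · intro he
      apply hb
      ext
      have := congrArg Prod.snd he
      simp only at this
      exact this.symm
  · simp
  · intro a _ ha
    refine Finset.sum_eq_zero fun b _ => ?_
    rw [if_neg (c := e = _)]
    · simp
    · intro he
      apply ha
      ext
      have := congrArg Prod.fst he
      simp only at this
      exact this.symm
  · simp

theorem count_cons_sum {D : ℕ} (e : ℕ × ℕ) (E : List (ℕ × ℕ)) (h1 : e.1 < D) (h2 : e.2 < D)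
    (h : e.1 < e.2) (F : Fin D → Fin D → ℝ) :
    ∑ a : Fin D, ∑ b : Fin D,
      (if a < b then ((e :: E).count ((a : ℕ), (b : ℕ)) : ℝ) * F a b else 0) =
      F ⟨e.1, h1⟩ ⟨e.2, h2⟩ + ∑ a : Fin D, ∑ b : Fin D,
        (if a < b then (E.count ((a : ℕ), (b : ℕ)) : ℝ) * F a b else 0) := by
  rw [← count_step e h1 h2 h F, ← Finset.sum_add_distrib]
  refine Finset.sum_congr rfl fun a _ => ?_
  rw [← Finset.sum_add_distrib]
  refine Finset.sum_congr rfl fun b _ => ?_
  by_cases hab : a < b
  · rw [if_pos hab, if_pos hab, if_pos hab, List.count_cons]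
    by_cases he : e = ((a : ℕ), (b : ℕ))
    · simp [he]
      ring
    · simp [he]
  · simp [hab]

theorem formStmt : H305.FormStmt := by
  intro D E
  induction E with
  | nil =>
    intro _
    constructor
    · intro χ
      simp [Heis.form]
    · simp
  | cons e E ih =>
    intro hE
    have he := hE e (by simp)
    have ih := ih fun e' he' => hE e' (by simp [he'])
    have h1 : e.1 < D := he.1.trans he.2
    constructor
    · intro χ
      rw [count_cons_sum e E h1 he.2 he.1, ← ih.1 χ]
      unfold Heis.form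
      rw [List.map_cons, List.sum_cons, dif_pos ⟨h1, he.2⟩]
    · have h := count_cons_sum e E h1 he.2 he.1 (fun _ _ => 1)
      simp only [mul_one] at h
      rw [h, ih.2]
      simp
      ring

theorem sum_erase_symm {D : ℕ} (f : Fin D → Fin D → ℝ) (hf : ∀ a b, f a b = f b a) :
    ∑ a, ∑ b ∈ univ.erase a, f a b = ∑ a, ∑ b, if a < b then 2 * f a b else 0 := by
  have h1 : ∑ a, ∑ b ∈ univ.erase a, f a b =
      ∑ a, ∑ b, ((if a < b then f a b else 0) + if b < a then f a b else 0) := by
    refine Finset.sum_congr rfl fun a _ => ?_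
    rw [← Finset.sum_erase (a := a) (s := univ)
      (f := fun b => (if a < b then f a b else 0) + if b < a then f a b else 0) (by simp)]
    refine Finset.sum_congr rfl fun b hb => ?_
    have hne : b ≠ a := (Finset.mem_erase.1 hb).1
    rcases lt_trichotomy a b with h | h | h
    · simp [h, h.not_gt]
    · exact absurd h.symm hne
    · simp [h, h.not_gt]
  rw [h1]
  simp only [Finset.sum_add_distrib]
  have h2 : ∑ a, ∑ b, (if b < a then f a b else 0) = ∑ a, ∑ b, if a < b then f a b else 0 := by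
    rw [Finset.sum_comm]
    refine Finset.sum_congr rfl fun a _ => Finset.sum_congr rfl fun b _ => ?_
    rw [hf]
  rw [h2, ← Finset.sum_add_distrib]
  refine Finset.sum_congr rfl fun a _ => ?_
  rw [← Finset.sum_add_distrib]
  refine Finset.sum_congr rfl fun b _ => ?_
  split_ifs <;> ring

theorem pairForm_eq {D : ℕ} (a b : Fin D) (χ : (Fin D → Bool) → ℝ) :
    Heis.pairForm a b χ = Heis.nsq χ + H600.swapForm a b χ := by
  unfold Heis.pairForm Heis.nsq H600.swapForm
  rw [Finset.sum_add_distrib]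

theorem abs_swapForm_le {D : ℕ} (a b : Fin D) (χ : (Fin D → Bool) → ℝ) :
    |H600.swapForm a b χ| ≤ Heis.nsq χ := by
  unfold H600.swapForm Heis.nsq
  have h1 : ∑ s : Fin D → Bool, χ (s ∘ Equiv.swap a b) ^ 2 = ∑ s, χ s ^ 2 := by
    let e : (Fin D → Bool) ≃ (Fin D → Bool) := (Equiv.swap a b).arrowCongr (Equiv.refl Bool)
    refine Fintype.sum_equiv e _ _ fun s => ?_
    congr 2
  refine (Finset.abs_sum_le_sum_abs _ _).trans ?_
  have h2 : ∀ s ∈ (univ : Finset (Fin D → Bool)), |χ s * χ (s ∘ Equiv.swap a b)| ≤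
      (1 / 2) * χ s ^ 2 + (1 / 2) * χ (s ∘ Equiv.swap a b) ^ 2 := by
    intro s _
    rw [abs_mul]
    nlinarith [sq_nonneg (|χ s| - |χ (s ∘ Equiv.swap a b)|), sq_abs (χ s),
      sq_abs (χ (s ∘ Equiv.swap a b))]
  refine (Finset.sum_le_sum h2).trans ?_
  rw [Finset.sum_add_distrib, ← Finset.mul_sum, ← Finset.mul_sum, h1]
  linarith

theorem heffStmt : H305.HeffStmt := by
  intro D E hE t g s ε hε ht hJ hts χ
  have hsq : H600.sq χ = Heis.nsq χ := rfl
  have hdel : ∀ a b, H600.Del g a b = H600.Del g b a := by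
    intro a b
    unfold H600.Del
    rw [hJ a b]
    ring
  have hsw : ∀ a b : Fin D, H600.swapForm a b χ = H600.swapForm b a χ := by
    intro a b
    unfold H600.swapForm
    rw [Equiv.swap_comm]
  have h1 : H600.heff t g χ = -∑ a, ∑ b, if a < b then
      2 * ((t a b ^ 2 / H600.Del g a b) * (Heis.nsq χ - H600.swapForm a b χ)) else 0 := by
    unfold H600.heff
    rw [hsq, sum_erase_symm]
    intro a b
    rw [ht a b, hdel a b, hsw a b]
  obtain ⟨hF, hC⟩ := formStmt D E hE
  set w : Fin D → Fin D → ℝ := fun a b => (E.count ((a : ℕ), (b : ℕ)) : ℝ) with hw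
  have hF' : Heis.form D E χ = ∑ a, ∑ b, if a < b then w a b * Heis.pairForm a b χ else 0 := hF χ
  have hC' : ∑ a, ∑ b, (if a < b then w a b else 0) = (E.length : ℝ) := hC
  have hts' : ∀ a b : Fin D, a < b → |2 * t a b ^ 2 / H600.Del g a b - s * w a b| ≤ ε := hts
  have h2 : s * (Heis.form D E χ - 2 * E.length * Heis.nsq χ) = -∑ a, ∑ b, if a < b then
      (s * w a b) * (Heis.nsq χ - H600.swapForm a b χ) else 0 := by
    rw [hF', ← hC', Finset.mul_sum, Finset.sum_mul, ← Finset.sum_sub_distrib, Finset.mul_sum,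
      ← Finset.sum_neg_distrib]
    refine Finset.sum_congr rfl fun a _ => ?_
    rw [Finset.mul_sum, Finset.sum_mul, ← Finset.sum_sub_distrib, Finset.mul_sum,
      ← Finset.sum_neg_distrib]
    refine Finset.sum_congr rfl fun b _ => ?_
    rw [pairForm_eq]
    split_ifs <;> ring
  rw [h1, h2, neg_sub_neg, ← Finset.sum_sub_distrib]
  refine (Finset.abs_sum_le_sum_abs _ _).trans ?_
  have hb : ∀ a ∈ (univ : Finset (Fin D)), |(∑ b, if a < b then
      (s * w a b) * (Heis.nsq χ - H600.swapForm a b χ) else 0) - ∑ b, if a < b then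
      2 * ((t a b ^ 2 / H600.Del g a b) * (Heis.nsq χ - H600.swapForm a b χ)) else 0| ≤
      ∑ b : Fin D, if a < b then ε * (2 * Heis.nsq χ) else 0 := by
    intro a _
    rw [← Finset.sum_sub_distrib]
    refine (Finset.abs_sum_le_sum_abs _ _).trans (Finset.sum_le_sum fun b _ => ?_)
    by_cases hab : a < b
    · simp only [hab, if_true]
      have e : (s * w a b) * (Heis.nsq χ - H600.swapForm a b χ) -
          2 * ((t a b ^ 2 / H600.Del g a b) * (Heis.nsq χ - H600.swapForm a b χ)) =
          -(2 * t a b ^ 2 / H600.Del g a b - s * w a b) *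
            (Heis.nsq χ - H600.swapForm a b χ) := by ring
      rw [e, abs_mul, abs_neg]
      have h3 := abs_swapForm_le a b χ
      have h4 : |Heis.nsq χ - H600.swapForm a b χ| ≤ 2 * Heis.nsq χ := by
        rw [abs_le] at h3 ⊢
        constructor <;> linarith
      exact mul_le_mul (hts' a b hab) h4 (abs_nonneg _) hε
    · simp [hab]
  refine (Finset.sum_le_sum hb).trans ?_
  have hn : 0 ≤ Heis.nsq χ := Finset.sum_nonneg fun s _ => sq_nonneg _
  -- the number of pairs `a < b` is at most `D ^ 2 / 2`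
  have h5 : ∑ a : Fin D, ∑ b : Fin D, (if a < b then ε * (2 * Heis.nsq χ) else 0) +
      ∑ a : Fin D, ∑ b : Fin D, (if a < b then ε * (2 * Heis.nsq χ) else 0) ≤
      ∑ _a : Fin D, ∑ _b : Fin D, ε * (2 * Heis.nsq χ) := by
    have h6 : ∑ a : Fin D, ∑ b : Fin D, (if a < b then ε * (2 * Heis.nsq χ) else 0) =
        ∑ a : Fin D, ∑ b : Fin D, (if b < a then ε * (2 * Heis.nsq χ) else 0) :=
      Finset.sum_comm
    conv_lhs => rw [h6]
    conv_lhs =>
      enter [2]
      rw [← h6]
    rw [← Finset.sum_add_distrib]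
    refine Finset.sum_le_sum fun a _ => ?_
    rw [← Finset.sum_add_distrib]
    refine Finset.sum_le_sum fun b _ => ?_
    have h0 : 0 ≤ ε * (2 * Heis.nsq χ) := by positivity
    rcases lt_trichotomy a b with h | h | h
    · simp [h, h.not_gt]
    · subst h
      simpa using h0
    · simp [h, h.not_gt]
  simp only [Finset.sum_const, Finset.card_univ, Fintype.card_fin, nsmul_eq_mul] at h5
  have h7 : (D : ℝ) ^ 2 * ε * Heis.nsq χ = (1 / 2) * ((D : ℝ) * ((D : ℝ) * (ε * (2 * Heis.nsq χ)))) := by
    ring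
  rw [h7]
  linarith

end Vale.Agent.P370.H207
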