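import Vale.Agent.P370.H207.Budget
import Vale.Agent.P370.H305.NumDefs

/-!
P370, line Q, half (II): the arithmetic part `NumStmt` of the final estimate.
-/

namespace Vale.Agent.P370.H207

open Vale.Agent.P370.H305

theorem pow_small {V : ℝ} (hV : 1 ≤ V) {a b c : ℕ} (h : a + b ≤ c) : V ^ a / V ^ c ≤ 1 / V ^ b := by
  have hV0 : 0 < V := by linarith
  rw [div_le_div_iff₀ (by positivity) (by positivity), one_mul, ← pow_add]
  exact pow_le_pow_right₀ hV h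

/-- bounds of the small quantities -/
theorem small_bounds {K c : ℕ} {V e S τ m L etaR mixR epL epO eta1 : ℝ} (hV : 3 ≤ V)
    (he0 : 0 ≤ e) (he : e ≤ 1 / V ^ c) (hc : K + 40 ≤ c)
    (hS : S ≤ V ^ 2) (hτ0 : 0 ≤ τ) (hτ : τ ≤ 1) (hm0 : 0 ≤ m) (hm : m ≤ V)
    (hL0 : 0 ≤ L) (hL : L ≤ V ^ K) (heta0 : 0 ≤ etaR) (heta : etaR ≤ 2 * e)
    (hmix : mixR ≤ V ^ 22 * e) (hepL : epL ≤ V ^ (K + 4) / V ^ c)
    (hepO : epO = 8 * m * etaR)
    (heta1 : eta1 = S * (2 * (2 * epO + etaR) + m * (2 * epO + etaR) ^ 2) +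
      (mixR + 3 * epO * (L * τ)) + epL) :
    0 ≤ epO ∧ epO ≤ V ^ 4 * e ∧ eta1 ≤ V ^ (K + 24) / V ^ c := by
  have hV0 : 0 < V := by linarith
  have hV1 : 1 ≤ V := by linarith
  have hVe : V ^ 8 * e ≤ 1 := by
    have h1 : V ^ 8 ≤ V ^ c := pow_le_pow_right₀ hV1 (by omega)
    calc V ^ 8 * e ≤ V ^ c * (1 / V ^ c) := by gcongr
      _ = 1 := by field_simp
  have hepO0 : 0 ≤ epO := by rw [hepO]; positivity
  have h81 : (81 : ℝ) ≤ V ^ 4 := by
    calc (81 : ℝ) = 3 ^ 4 := by norm_num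
      _ ≤ V ^ 4 := by gcongr
  have h27 : (27 : ℝ) ≤ V ^ 3 := by
    calc (27 : ℝ) = 3 ^ 3 := by norm_num
      _ ≤ V ^ 3 := by gcongr
  have hepO1 : epO ≤ 16 * V * e := by
    rw [hepO]
    calc 8 * m * etaR ≤ 8 * V * (2 * e) := by gcongr
      _ = 16 * V * e := by ring
  have hepO4 : epO ≤ V ^ 4 * e := by
    refine hepO1.trans ?_
    have : 16 * V ≤ V ^ 4 := by nlinarith
    gcongr
  refine ⟨hepO0, hepO4, ?_⟩
  set x := 2 * epO + etaR with hx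
  have hx0 : 0 ≤ x := by positivity
  have hx1 : x ≤ 34 * V * e := by
    have : e ≤ V * e := le_mul_of_one_le_left he0 hV1
    linarith
  have hx2 : x ≤ 1 := by
    refine hx1.trans (le_trans ?_ hVe)
    have : 34 * V ≤ V ^ 8 := by
      calc 34 * V ≤ 81 * V ^ 4 := by
            have : V ≤ V ^ 4 := le_self_pow₀ hV1 (by norm_num)
            nlinarith
        _ ≤ V ^ 4 * V ^ 4 := by gcongr
        _ = V ^ 8 := by ring
    gcongr
  have t1 : S * (2 * x + m * x ^ 2) ≤ V ^ 8 * e := by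
    have h2 : x ^ 2 ≤ x := by nlinarith
    calc S * (2 * x + m * x ^ 2) ≤ V ^ 2 * (2 * x + V * x) := by gcongr
      _ ≤ V ^ 2 * (2 * V * x) := by
          gcongr
          nlinarith
      _ ≤ V ^ 2 * (2 * V * (34 * V * e)) := by gcongr
      _ = 68 * V ^ 4 * e := by ring
      _ ≤ V ^ 4 * V ^ 4 * e := by
          gcongr
          linarith
      _ = V ^ 8 * e := by ring
  have t2 : 3 * epO * (L * τ) ≤ V ^ (K + 5) * e := by
    calc 3 * epO * (L * τ) ≤ 3 * (16 * V * e) * (V ^ K * 1) := by gcongr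
      _ = 48 * (V ^ (K + 1) * e) := by rw [pow_succ]; ring
      _ ≤ V ^ 4 * (V ^ (K + 1) * e) := by
          gcongr
          linarith
      _ = V ^ (K + 5) * e := by ring
  have up : ∀ a : ℕ, a ≤ K + 22 → V ^ a * e ≤ V ^ (K + 22) / V ^ c := fun a ha => by
    calc V ^ a * e ≤ V ^ (K + 22) * (1 / V ^ c) := by
          have := pow_le_pow_right₀ hV1 ha
          gcongr
      _ = _ := by ring
  have t3 : V ^ (K + 4) / V ^ c ≤ V ^ (K + 22) / V ^ c := by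
    have := pow_le_pow_right₀ hV1 (by omega : K + 4 ≤ K + 22)
    gcongr
  rw [heta1]
  have h4 : 4 * (V ^ (K + 22) / V ^ c) ≤ V ^ (K + 24) / V ^ c := by
    rw [← mul_div_assoc]
    gcongr
    calc 4 * V ^ (K + 22) ≤ V ^ 2 * V ^ (K + 22) := by
          gcongr
          nlinarith
      _ = V ^ (K + 24) := by ring
  refine le_trans ?_ h4
  have := up 8 (by omega)
  have := up 22 (by omega)
  have := up (K + 5) (by omega)
  linarith

/-- the perturbation error -/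
theorem pert_bound {K c : ℕ} {V A e m L epO eta1 : ℝ} (hV : 3 ≤ V)
    (he0 : 0 ≤ e) (he : e ≤ 1 / V ^ c) (hc : K + 40 ≤ c) (hA0 : 0 < A) (hA : A ≤ V)
    (hm0 : 0 ≤ m) (hm : m ≤ V) (hL0 : 0 ≤ L) (hL : L ≤ V ^ K)
    (hepO0 : 0 ≤ epO) (hepO : epO ≤ V ^ 4 * e) (heta1 : eta1 ≤ V ^ (K + 24) / V ^ c) :
    m * m * eta1 + m ^ 2 * m ^ 2 * (9 * epO * L) / 2 ≤ 1 / A / 64 := by
  have hV0 : 0 < V := by linarith
  have hV1 : 1 ≤ V := by linarith
  have h81 : (81 : ℝ) ≤ V ^ 4 := by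
    calc (81 : ℝ) = 3 ^ 4 := by norm_num
      _ ≤ V ^ 4 := by gcongr
  have h1 : m * m * eta1 ≤ V ^ (K + 26) / V ^ c := by
    calc m * m * eta1 ≤ m * m * (V ^ (K + 24) / V ^ c) := by gcongr
      _ ≤ V * V * (V ^ (K + 24) / V ^ c) := by gcongr
      _ = V ^ (K + 26) / V ^ c := by ring
  have h2 : m ^ 2 * m ^ 2 * (9 * epO * L) / 2 ≤ V ^ (K + 26) / V ^ c := by
    calc m ^ 2 * m ^ 2 * (9 * epO * L) / 2 ≤ V ^ 2 * V ^ 2 * (9 * (V ^ 4 * e) * V ^ K) / 2 := by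
          gcongr
      _ = 9 / 2 * (V ^ (K + 8) * e) := by ring
      _ ≤ V ^ 4 * (V ^ (K + 8) * (1 / V ^ c)) := by
          gcongr
          linarith
      _ = V ^ (K + 12) / V ^ c := by ring
      _ ≤ V ^ (K + 26) / V ^ c := by
          have := pow_le_pow_right₀ hV1 (by omega : K + 12 ≤ K + 26)
          gcongr
  have h3 : V ^ (K + 27) / V ^ c ≤ 1 / V ^ 5 := pow_small hV1 (by omega)
  have h4 : 2 * (V ^ (K + 26) / V ^ c) ≤ V ^ (K + 27) / V ^ c := by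
    rw [← mul_div_assoc]
    gcongr
    rw [pow_succ V (K + 26), mul_comm]
    gcongr
    linarith
  have h5 : 1 / V ^ 5 ≤ 1 / A / 64 := by
    rw [div_div]
    apply one_div_le_one_div_of_le (by positivity)
    calc A * 64 ≤ V * V ^ 4 := by
          gcongr
          linarith
      _ = V ^ 5 := by ring
  linarith

/-- the offset error -/
theorem off_bound {K c : ℕ} {V A e x τ m L epL : ℝ} (hV : 3 ≤ V)
    (he : e ≤ 1 / V ^ c) (hc : K + 40 ≤ c) (hA0 : 0 < A) (hA : A ≤ V)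
    (hx0 : 0 ≤ x) (hx : x ≤ e) (hτ0 : 0 ≤ τ) (hτ : τ ≤ 1)
    (hm0 : 0 ≤ m) (hm : m ≤ V) (hL : L ≤ V ^ K)
    (hepL : epL ≤ V ^ (K + 4) / V ^ c) :
    m * (epL + L * m ^ 2 * τ * x) ≤ 1 / A / 64 := by
  have hV0 : 0 < V := by linarith
  have hV1 : 1 ≤ V := by linarith
  have h81 : (81 : ℝ) ≤ V ^ 4 := by
    calc (81 : ℝ) = 3 ^ 4 := by norm_num
      _ ≤ V ^ 4 := by gcongr
  have h1 : L * m ^ 2 * τ * x ≤ V ^ (K + 4) / V ^ c := by
    calc L * m ^ 2 * τ * x ≤ V ^ K * V ^ 2 * 1 * (1 / V ^ c) := by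
          have := hx.trans he
          gcongr
      _ = V ^ (K + 2) / V ^ c := by ring
      _ ≤ V ^ (K + 4) / V ^ c := by
          have := pow_le_pow_right₀ hV1 (by omega : K + 2 ≤ K + 4)
          gcongr
  have h2 : m * (epL + L * m ^ 2 * τ * x) ≤ V ^ (K + 6) / V ^ c := by
    calc m * (epL + L * m ^ 2 * τ * x) ≤ m * (V * (V ^ (K + 4) / V ^ c)) := by
          gcongr
          have : 0 ≤ V ^ (K + 4) / V ^ c := by positivity
          nlinarith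
      _ ≤ V * (V * (V ^ (K + 4) / V ^ c)) := by gcongr
      _ = V ^ (K + 6) / V ^ c := by ring
  have h3 : V ^ (K + 6) / V ^ c ≤ 1 / V ^ 5 := pow_small hV1 (by omega)
  have h5 : 1 / V ^ 5 ≤ 1 / A / 64 := by
    rw [div_div]
    apply one_div_le_one_div_of_le (by positivity)
    calc A * 64 ≤ V * V ^ 4 := by
          gcongr
          linarith
      _ = V ^ 5 := by ring
  linarith

/-- the selection -/
theorem sel_bound {K c : ℕ} {U A P S τ m n L epL eta1 tauP bS gapS : ℝ} (hU : 27 ≤ U)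
    (hc : 2 * K + 40 ≤ c) (hA0 : 0 < A) (hA : A ≤ U) (hP : U ^ c ≤ P) (hS : P ≤ S)
    (hτ0 : 0 ≤ τ) (hτ : τ ≤ 1) (hm0 : 0 ≤ m) (hn0 : 0 ≤ n) (hm1 : m ≤ U) (hn1 : n ≤ U)
    (hmn : m * n ≤ U) (hL0 : 0 ≤ L) (hL : L ≤ U ^ K) (hepL0 : 0 ≤ epL) (hepL : epL ≤ 1)
    (heta0 : 0 ≤ eta1) (heta : eta1 ≤ 1)
    (htau : tauP = L * τ + epL + τ + eta1)
    (hbS : bS = m * n ^ 2 * tauP + m ^ 2 * (n ^ 2) ^ 2 * L / 2 + m ^ 2)
    (hgapS : gapS = S - 2 * L - L * τ - epL) :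
    4 * bS ≤ gapS ∧ 2 * bS ^ 2 / gapS ≤ 1 / A / 64 := by
  have hU0 : 0 < U := by linarith
  have hU1 : 1 ≤ U := by linarith
  have hUK : 1 ≤ U ^ K := one_le_pow₀ hU1
  have htauP : tauP ≤ U ^ K + 3 := by
    have : L * τ ≤ U ^ K * 1 := by gcongr
    linarith
  have htauP0 : 0 ≤ tauP := by rw [htau]; positivity
  have hmn2 : m * n ^ 2 ≤ U ^ 2 := by
    calc m * n ^ 2 = (m * n) * n := by ring
      _ ≤ U * U := by gcongr
      _ = U ^ 2 := by ring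
  have hbS0 : 0 ≤ bS := by rw [hbS]; positivity
  have hbS1 : bS ≤ U ^ (K + 5) := by
    rw [hbS]
    have h1 : m * n ^ 2 * tauP ≤ U ^ 2 * (U ^ K + 3) := by gcongr
    have h2 : m ^ 2 * (n ^ 2) ^ 2 * L / 2 ≤ (U ^ 2) ^ 2 * U ^ K / 2 := by
      have : m ^ 2 * (n ^ 2) ^ 2 = (m * n ^ 2) ^ 2 := by ring
      rw [this]
      gcongr
    have h3 : m ^ 2 ≤ U ^ 2 := by gcongr
    have h4 : (27 : ℝ) ^ 2 ≤ U ^ 2 := by gcongr
    have h5 : U ^ 2 ≤ U ^ 2 * U ^ K := le_mul_of_one_le_right (by positivity) hUK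
    have h6 : U ^ 2 * U ^ K * 729 ≤ U ^ 2 * U ^ K * U ^ 2 := by
      gcongr
      linarith
    have h7 : U ^ (K + 5) = (U ^ 2 * U ^ K * U ^ 2) * U := by ring
    have h8 : (U ^ 2 * U ^ K * U ^ 2) * 27 ≤ (U ^ 2 * U ^ K * U ^ 2) * U := by gcongr
    have h9 : (U ^ 2) ^ 2 * U ^ K = U ^ 2 * U ^ K * U ^ 2 := by ring
    rw [h9] at h2
    rw [h7]
    have h10 : 0 ≤ U ^ 2 * U ^ K * U ^ 2 := by positivity
    nlinarith
  have hP1 : U ^ (2 * K + 40) ≤ P := (pow_le_pow_right₀ hU1 hc).trans hP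
  have hLU : 8 * L ≤ P := by
    calc 8 * L ≤ U * U ^ K := by gcongr; linarith
      _ = U ^ (K + 1) := by ring
      _ ≤ U ^ (2 * K + 40) := pow_le_pow_right₀ hU1 (by omega)
      _ ≤ P := hP1
  have hP8 : 8 ≤ P := by
    calc (8 : ℝ) ≤ U ^ 1 := by linarith
      _ ≤ U ^ (2 * K + 40) := pow_le_pow_right₀ hU1 (by omega)
      _ ≤ P := hP1
  have hgap : P / 2 ≤ gapS := by
    rw [hgapS]
    have : L * τ ≤ L * 1 := by gcongr
    linarith
  have hP0 : 0 < P := by linarith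
  constructor
  · have h1 : 8 * bS ≤ P := by
      calc 8 * bS ≤ U * U ^ (K + 5) := by gcongr; linarith
        _ = U ^ (K + 6) := by ring
        _ ≤ U ^ (2 * K + 40) := pow_le_pow_right₀ hU1 (by omega)
        _ ≤ P := hP1
    linarith
  · calc 2 * bS ^ 2 / gapS ≤ 2 * (U ^ (K + 5)) ^ 2 / (P / 2) := by gcongr
      _ = 4 * U ^ (2 * K + 10) / P := by
          field_simp
          ring
      _ ≤ U * U ^ (2 * K + 10) / U ^ c := by
          have : 4 ≤ U := by linarith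
          gcongr
      _ = U ^ (2 * K + 11) / U ^ c := by ring
      _ ≤ 1 / U ^ 5 := pow_small hU1 (by omega)
      _ ≤ 1 / A / 64 := by
          rw [div_div]
          apply one_div_le_one_div_of_le (by positivity)
          calc A * 64 ≤ U * U ^ 4 := by
                gcongr
                calc (64 : ℝ) ≤ 27 ^ 4 := by norm_num
                  _ ≤ U ^ 4 := by gcongr
            _ = U ^ 5 := by ring

/-- the heavy charge, polynomial part -/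
theorem heavy_bound {p c : ℕ} {Q A T b N x Z : ℝ} (hQ : 3 ≤ Q) (hc : 16 * p + 10 ≤ c)
    (hA0 : 0 < A) (hA : A ≤ Q) (hT1 : 1 ≤ T) (hT : T ≤ Q) (hb : b ≤ Q) (hN : N ≤ Q)
    (hx0 : 0 ≤ x) (hx : x ≤ N + b + (2 * T ^ 4 + 1) ^ 3 + 3) (hZ : Q ^ c ≤ Z) :
    x ^ p ≤ Z ∧ x ^ p / Z ≤ 1 / A / 64 := by
  have hQ0 : 0 < Q := by linarith
  have hQ1 : 1 ≤ Q := by linarith
  have hT0 : 0 < T := by linarith
  have hx1 : x ≤ Q ^ 16 := by
    have h1 : (2 * T ^ 4 + 1) ^ 3 ≤ 27 * Q ^ 12 := by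
      have h2 : 2 * T ^ 4 + 1 ≤ 3 * Q ^ 4 := by
        have h3 : T ^ 4 ≤ Q ^ 4 := by gcongr
        have h4 : 1 ≤ Q ^ 4 := one_le_pow₀ hQ1
        linarith
      calc (2 * T ^ 4 + 1) ^ 3 ≤ (3 * Q ^ 4) ^ 3 := by gcongr
        _ = 27 * Q ^ 12 := by ring
    have h5 : Q ≤ Q ^ 12 := le_self_pow₀ hQ1 (by norm_num)
    calc x ≤ 30 * Q ^ 12 := by linarith
      _ ≤ Q ^ 4 * Q ^ 12 := by
          gcongr
          calc (30 : ℝ) ≤ 3 ^ 4 := by norm_num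
            _ ≤ Q ^ 4 := by gcongr
      _ = Q ^ 16 := by ring
  have hx2 : x ^ p ≤ Q ^ (16 * p) := by
    calc x ^ p ≤ (Q ^ 16) ^ p := by gcongr
      _ = Q ^ (16 * p) := (pow_mul Q 16 p).symm
  have hZ0 : 0 < Z := lt_of_lt_of_le (by positivity) hZ
  constructor
  · exact hx2.trans ((pow_le_pow_right₀ hQ1 (by omega)).trans hZ)
  · calc x ^ p / Z ≤ Q ^ (16 * p) / Q ^ c := by gcongr
      _ ≤ 1 / Q ^ 5 := pow_small hQ1 (by omega)
      _ ≤ 1 / A / 64 := by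
          rw [div_div]
          apply one_div_le_one_div_of_le (by positivity)
          calc A * 64 ≤ Q * Q ^ 4 := by
                gcongr
                calc (64 : ℝ) ≤ 3 ^ 4 := by norm_num
                  _ ≤ Q ^ 4 := by gcongr
            _ = Q ^ 5 := by ring

/-- the parameters of the estimate as real numbers -/
structure Par (c : ℕ) (b N A P T Z : ℝ) : Prop where
  hb : 3 ≤ b
  hA : 1 ≤ A
  hP : 1 ≤ P
  hT : 1 ≤ T
  hZ : 1 ≤ Z
  shell : b ^ c ≤ N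
  mott : ∀ δ Δ κ τ k0 : ℝ, 1 / (b ^ c * N ^ 2) ≤ δ →
    0 ≤ Δ → Δ ≤ b ^ c * N ^ (-(13 / 7) : ℝ) →
    0 ≤ κ → κ ≤ b ^ c * N ^ (-(13 / 6) : ℝ) →
    0 ≤ τ → τ ^ 2 ≤ b ^ c * Δ * (1 / A) → 0 ≤ k0 → k0 ≤ b ^ c * (1 / A) →
    b ^ 2 * τ ≤ δ / 2 ∧
      2 * (b ^ 2 * τ / δ) * k0 + k0 ^ 2 / δ + b ^ 4 * κ ≤ (1 / A) / b ^ c
  sel : (b * N * A) ^ c ≤ P
  latt : (b * N * A * P) ^ c ≤ √T
  heavy : (b * N * A * P * T) ^ c ≤ Z
  tiny : Real.exp (-((N - 1) / (8 * b ^ 4))) ≤ 1 / (b * N * A * P) ^ c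

/-- the order of the composite parameters -/
theorem Par.ord {c : ℕ} {b N A P T Z : ℝ} (h : Par c b N A P T Z) (hc : 50 ≤ c) :
    1 ≤ b ∧ b ≤ N ∧ b * N ≤ b * N * A ∧ 27 ≤ b * N * A ∧ b ≤ b * N * A ∧ N ≤ b * N * A ∧
      A ≤ b * N * A ∧ b * N * A ≤ b * N * A * P ∧ P ≤ b * N * A * P ∧
      b * N * A * P ≤ b * N * A * P * T ∧ T ≤ b * N * A * P * T ∧
      (∀ k : ℕ, k ≤ c → b ^ k ≤ N) := by
  obtain ⟨hb, hA, hP, hT, -, hs, -, -, -, -, -⟩ := h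
  have hb0 : 0 < b := by linarith
  have hb1 : 1 ≤ b := by linarith
  have pwb : ∀ k : ℕ, k ≤ c → b ^ k ≤ N := fun k hk => (pow_le_pow_right₀ hb1 hk).trans hs
  have hbN1 : b ≤ N := by simpa using pwb 1 (by omega)
  have hN0 : 0 < N := by linarith
  have hN1 : 1 ≤ N := by linarith
  have hA0 : 0 < A := by linarith
  have hP0 : 0 < P := by linarith
  have hT0 : 0 < T := by linarith
  have h1 : b * N ≤ b * N * A := le_mul_of_one_le_right (by positivity) hA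
  have h2 : 27 ≤ b * N * A := by
    have h3 : b ^ 2 ≤ N := pwb 2 (by omega)
    have : (3 : ℝ) * 3 ^ 2 ≤ b * N := by
      calc (3 : ℝ) * 3 ^ 2 ≤ b * b ^ 2 := by gcongr
        _ ≤ b * N := by gcongr
    linarith
  have h3 : b ≤ b * N := le_mul_of_one_le_right hb0.le hN1
  have h4 : N ≤ b * N := le_mul_of_one_le_left hN0.le hb1
  have h5 : A ≤ b * N * A := le_mul_of_one_le_left hA0.le (by linarith)
  have h6 : P ≤ b * N * A * P := le_mul_of_one_le_left hP0.le (by linarith)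
  have h7 : b * N * A ≤ b * N * A * P := le_mul_of_one_le_right (by positivity) hP
  refine ⟨hb1, hbN1, h1, h2, h3.trans h1, h4.trans h1, h5, h7, h6,
    le_mul_of_one_le_right (by positivity) hT, le_mul_of_one_le_left hT0.le (by linarith), pwb⟩

/-- the Mott block -/
theorem Par.mott' {c : ℕ} {b N A P T Z : ℝ} (h : Par c b N A P T Z) (hc : 50 ≤ c)
    {J m : ℕ} {τ Δ : ℝ} (hnN : ((J + 1 : ℕ) : ℝ) = N) (hm : 2 ≤ m) (hmb : (m : ℝ) ≤ b)
    (hτ0 : 0 ≤ τ) (hΔ0 : 0 ≤ Δ) (hΔ : Δ ≤ 3000 * N ^ (-(13 / 7) : ℝ))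
    (hτ2 : τ ^ 2 ≤ b * Δ * (1 / A)) :
    (m : ℝ) ^ 2 * τ ≤ delR J m / 2 ∧ τ ≤ 1 ∧
      H600.mottErr2 m (delR J m) (kapR J m) τ (4 * b * (1 / A)) ≤ 1 / A / 64 := by
  obtain ⟨hb1, hbN, -, -, -, -, -, -, -, -, -, pwb⟩ := h.ord hc
  have hb0 : 0 < b := by linarith
  have hN1 : 1 ≤ N := by linarith
  have hN0 : 0 < N := by linarith
  have hA0 : 0 < A := by have := h.hA; linarith
  have hm0 : (0 : ℝ) ≤ m := by positivity
  have hm2 : (2 : ℝ) ≤ m := by exact_mod_cast hm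
  have hb3 := h.hb
  have p9 : (19683 : ℝ) ≤ b ^ 9 := by
    calc (19683 : ℝ) = 3 ^ 9 := by norm_num
      _ ≤ b ^ 9 := by gcongr
  have p4 : (81 : ℝ) ≤ b ^ 4 := by
    calc (81 : ℝ) = 3 ^ 4 := by norm_num
      _ ≤ b ^ 4 := by gcongr
  have hδ : 1 / (b ^ c * N ^ 2) ≤ delR J m := by
    rw [delR, hnN, div_div]
    apply one_div_le_one_div_of_le (by positivity)
    calc 200000000 * ((m : ℝ) * N ^ 2) ≤ b ^ 18 * (b * N ^ 2) := by
          gcongr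
          calc (200000000 : ℝ) ≤ 3 ^ 18 := by norm_num
            _ ≤ b ^ 18 := by gcongr
      _ = b ^ 19 * N ^ 2 := by ring
      _ ≤ b ^ c * N ^ 2 := by
          have : b ^ 19 ≤ b ^ c := pow_le_pow_right₀ hb1 (by omega)
          gcongr
  have hδ0 : 0 < delR J m := lt_of_lt_of_le (by positivity) hδ
  have hNr0 : 0 ≤ N ^ (-(13 / 7) : ℝ) := Real.rpow_nonneg hN0.le _
  have hNr0' : 0 ≤ N ^ (-(13 / 6) : ℝ) := Real.rpow_nonneg hN0.le _
  have hκ0 : 0 ≤ kapR J m := by rw [kapR, hnN]; positivity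
  obtain ⟨hsm, hmott⟩ := h.mott (delR J m) Δ (kapR J m) τ (4 * b * (1 / A)) hδ hΔ0
    (by
      refine hΔ.trans ?_
      have : (3000 : ℝ) ≤ b ^ c := by
        calc (3000 : ℝ) ≤ b ^ 9 := by linarith
          _ ≤ b ^ c := pow_le_pow_right₀ hb1 (by omega)
      gcongr)
    hκ0
    (by
      rw [kapR, hnN]
      have : 15 * (m : ℝ) ^ 4 ≤ b ^ c := by
        calc 15 * (m : ℝ) ^ 4 ≤ b ^ 4 * b ^ 4 := by
              gcongr
              linarith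
          _ = b ^ 8 := by ring
          _ ≤ b ^ c := pow_le_pow_right₀ hb1 (by omega)
      gcongr)
    hτ0
    (by
      refine hτ2.trans ?_
      have : b ≤ b ^ c := le_self_pow₀ hb1 (by omega)
      gcongr)
    (by positivity)
    (by
      have : 4 * b ≤ b ^ c := by
        calc 4 * b ≤ b ^ 4 * b := by gcongr; linarith
          _ = b ^ 5 := by ring
          _ ≤ b ^ c := pow_le_pow_right₀ hb1 (by omega)
      gcongr)
  have hsmall : (m : ℝ) ^ 2 * τ ≤ delR J m / 2 := by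
    refine le_trans ?_ hsm
    gcongr
  have hdel1 : delR J m ≤ 1 := by
    rw [delR, hnN, div_div, div_le_one (by positivity)]
    have h3 : 1 ≤ (m : ℝ) * N ^ 2 := by
      have : 1 ≤ N ^ 2 := one_le_pow₀ hN1
      nlinarith
    linarith
  have hτ1 : τ ≤ 1 := by
    have h3 : τ ≤ (m : ℝ) ^ 2 * τ := le_mul_of_one_le_left hτ0 (one_le_pow₀ (by linarith))
    linarith
  refine ⟨hsmall, hτ1, ?_⟩
  have h3 : 1 / A / b ^ c ≤ 1 / A / 64 := by
    have : (64 : ℝ) ≤ b ^ c := by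
      calc (64 : ℝ) ≤ b ^ 4 := by linarith
        _ ≤ b ^ c := pow_le_pow_right₀ hb1 (by omega)
    gcongr
  refine le_trans ?_ (hmott.trans h3)
  rw [H600.mottErr2]
  gcongr

/-- the exponentials -/
theorem exp_bound {b N m : ℝ} (hb : 1 ≤ b) (hN : 1 ≤ N) (hm : 1 ≤ m) (hmb : m ≤ b) :
    Real.exp (-((N - 1) / m ^ 2)) ≤ Real.exp (-((N - 1) / (8 * b ^ 4))) ∧
      Real.exp (-((N - 1) / (8 * m ^ 4))) ≤ Real.exp (-((N - 1) / (8 * b ^ 4))) := by
  have h4 : 0 ≤ N - 1 := by linarith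
  constructor
  · apply Real.exp_le_exp.2
    apply neg_le_neg
    have h3 : m ^ 2 ≤ 8 * b ^ 4 := by
      calc m ^ 2 ≤ b ^ 2 := by gcongr
        _ ≤ b ^ 4 := pow_le_pow_right₀ hb (by norm_num)
        _ ≤ 8 * b ^ 4 := by
            have : 0 ≤ b ^ 4 := by positivity
            linarith
    gcongr
  · apply Real.exp_le_exp.2
    apply neg_le_neg
    gcongr

/-- the lattice remainder and the mixing -/
theorem Par.latt' {c : ℕ} {b N A P T Z : ℝ} (h : Par c b N A P T Z) (hc : 50 ≤ c)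
    {K J m t : ℕ} {S τ : ℝ} (hnN : ((J + 1 : ℕ) : ℝ) = N) (ht : (t : ℝ) = T) (hm : 2 ≤ m)
    (hmb : (m : ℝ) ≤ b) (hS1 : P ≤ S) (hS2 : S ≤ 2 * P)
    (hτ0 : 0 ≤ τ) (hτ1 : τ ≤ 1) :
    ((J : ℝ) + 2) ^ K ≤ (b * N * A) ^ K ∧ ((J : ℝ) + 2) ^ K ≤ (b * N * A * P) ^ K ∧
      S ≤ (b * N * A * P) ^ 2 ∧ 0 ≤ epL K J S τ t ∧
      epL K J S τ t ≤ (b * N * A * P) ^ (K + 4) / (b * N * A * P) ^ c ∧
      0 ≤ etaR J m ∧ etaR J m ≤ 2 * Real.exp (-((N - 1) / (8 * b ^ 4))) ∧ 0 ≤ mixR J m τ ∧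
      mixR J m τ ≤ (b * N * A * P) ^ 22 * Real.exp (-((N - 1) / (8 * b ^ 4))) := by
  obtain ⟨hb1, hbN, hNU, hU27, hbU, hNU', hAU, hUV, hPV, -, -, pwb⟩ := h.ord hc
  have hb3 := h.hb
  have hP1 := h.hP
  have hs := h.latt
  have hN1 : 1 ≤ N := by linarith
  generalize b * N * A * P = V at *
  generalize b * N * A = U at *
  have hJN : (J : ℝ) + 1 = N := by rw [← hnN]; push_cast; rfl
  have hm0 : (0 : ℝ) ≤ m := by positivity
  have hm2 : (2 : ℝ) ≤ m := by exact_mod_cast hm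
  have hV0 : 0 < V := by linarith
  have hV1 : 1 ≤ V := by linarith
  have hS0 : 0 ≤ S := by linarith
  have hJ2 : (J : ℝ) + 2 ≤ U := by
    have : 2 * N ≤ b * N := by gcongr; linarith
    linarith
  have hLU : ((J : ℝ) + 2) ^ K ≤ U ^ K := by gcongr
  have hLV : ((J : ℝ) + 2) ^ K ≤ V ^ K := hLU.trans (by gcongr)
  have hSV : S ≤ V ^ 2 := by nlinarith
  obtain ⟨he1, he2⟩ := exp_bound hb1 hN1 (by linarith : (1 : ℝ) ≤ m) hmb
  refine ⟨hLU, hLV, hSV, by rw [epL]; positivity, ?_, by rw [etaR]; positivity,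
    by rw [etaR, hnN]; linarith, by rw [mixR]; positivity, ?_⟩
  · rw [epL, ht]
    have h3 : 1 + S + τ ≤ V ^ 2 := by
      have h4 : 27 * P ≤ V * V := by
        have : 27 ≤ V := by linarith
        gcongr
      nlinarith
    have h5 : (1 + S + τ) ^ 2 ≤ V ^ 4 := by
      calc (1 + S + τ) ^ 2 ≤ (V ^ 2) ^ 2 := by gcongr
        _ = V ^ 4 := by ring
    calc ((J : ℝ) + 2) ^ K * (1 + S + τ) ^ 2 / √T ≤ V ^ K * V ^ 4 / V ^ c := by gcongr
      _ = V ^ (K + 4) / V ^ c := by rw [pow_add V K 4]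
  · rw [mixR, hnN]
    have h3 : (m : ℝ) ≤ V := hmb.trans (hbU.trans hUV)
    have h4 : N ≤ V := hNU'.trans hUV
    calc 1600000 * (m : ℝ) ^ 2 * N ^ 6 * τ * Real.exp (-((N - 1) / (8 * (m : ℝ) ^ 4))) ≤
        V ^ 14 * V ^ 2 * V ^ 6 * 1 * Real.exp (-((N - 1) / (8 * b ^ 4))) := by
          gcongr
          calc (1600000 : ℝ) ≤ 3 ^ 14 := by norm_num
            _ ≤ V ^ 14 := by
                have : 3 ≤ V := by linarith
                gcongr
      _ = V ^ 22 * Real.exp (-((N - 1) / (8 * b ^ 4))) := by ring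

/-- all the inequalities -/
theorem Par.nums {c : ℕ} {b N A P T Z : ℝ} (h : Par c b N A P T Z) {K p : ℕ}
    (hc : 4 * K + 20 * p + 200 ≤ c) {B J m t Zc : ℕ} {S τ Δ : ℝ} (hbB : (B : ℝ) = b)
    (hnN : ((J + 1 : ℕ) : ℝ) = N) (ht : (t : ℝ) = T) (hZc : (Zc : ℝ) = Z) (hm : 2 ≤ m)
    (hmb : (m : ℝ) ≤ b) (hS1 : P ≤ S) (hS2 : S ≤ 2 * P)
    (hτ0 : 0 ≤ τ) (hΔ0 : 0 ≤ Δ) (hΔ : Δ ≤ 3000 * N ^ (-(13 / 7) : ℝ))
    (hτ2 : τ ^ 2 ≤ b * Δ * (1 / A)) : Nums K p J m t Zc B S τ (1 / A) := by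
  have hc50 : 50 ≤ c := by omega
  obtain ⟨hsm, hτ1, hmott⟩ := h.mott' hc50 hnN hm hmb hτ0 hΔ0 hΔ hτ2
  obtain ⟨hLU, hLV, hSV, hepL0, hepL, heta0, heta, hmix0, hmix⟩ :=
    h.latt' hc50 (K := K) (S := S) hnN ht hm hmb hS1 hS2 hτ0 hτ1
  obtain ⟨hb1, hbN, hNU, hU27, hbU, hNU', hAU, hUV, hPV, hVQ, hTQ, pwb⟩ := h.ord hc50
  have hb3 := h.hb
  have hP1 := h.hP
  have hA1 := h.hA
  have hN1 : 1 ≤ N := by linarith
  have hsel := h.sel
  have hheavy := h.heavy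
  have htiny := h.tiny
  have he1 := (exp_bound hb1 hN1 (by exact_mod_cast (by omega : 1 ≤ m) : (1 : ℝ) ≤ m) hmb).1
  have he0 := (Real.exp_pos (-((N - 1) / (8 * b ^ 4)))).le
  have hmU : (m : ℝ) * N ≤ b * N := by gcongr
  generalize Real.exp (-((N - 1) / (8 * b ^ 4))) = e at *
  generalize b * N * A * P * T = Q at *
  generalize b * N * A * P = V at *
  generalize b * N * A = U at *
  have hJN : (J : ℝ) + 1 = N := by rw [← hnN]; push_cast; rfl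
  have hm0 : (0 : ℝ) ≤ m := by positivity
  have hmV : (m : ℝ) ≤ V := hmb.trans (hbU.trans hUV)
  have hL0 : 0 ≤ ((J : ℝ) + 2) ^ K := by positivity
  have hA0 : 0 < A := by linarith
  have hV1 : 1 ≤ V := by linarith
  have hV3 : 3 ≤ V := by linarith
  have hS0 : 0 ≤ S := by linarith
  have hK : K + 40 ≤ c := by omega
  have small1 : ∀ a : ℕ, a ≤ c → V ^ a / V ^ c ≤ 1 := fun a ha =>
    (pow_small hV1 (b := 0) (by omega)).trans (by simp)
  obtain ⟨hepO0, hepO, heta1⟩ := small_bounds (K := K) (c := c) hV3 he0 htiny hK hSV hτ0 hτ1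
    hm0 hmV hL0 hLV heta0 heta hmix hepL (rfl : epO J m = 8 * m * etaR J m)
    (rfl : eta1 K J m S τ t = _)
  have heta10 : 0 ≤ eta1 K J m S τ t := by
    rw [eta1]
    positivity
  obtain ⟨hsel1, hsel2⟩ := sel_bound (K := K) (c := c) (n := N) hU27 (by omega) hA0 hAU hsel hS1
    hτ0 hτ1 hm0 (by linarith) (hmb.trans hbU) hNU' (hmU.trans hNU) hL0 hLU hepL0
    (hepL.trans (small1 _ (by omega))) heta10
    (heta1.trans (small1 _ (by omega))) (rfl : tauP K J m S τ t = _)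
    (bS := bS K J m S τ t)
    (by
      rw [bS]
      push_cast
      rw [hJN]) (rfl : gapS K J S τ t = _)
  obtain ⟨hh1, hh2⟩ := heavy_bound (p := p) (c := c) (Q := Q) (A := A) (T := T) (b := b) (N := N)
    (x := ((J + m + cardL t + 3 : ℕ) : ℝ)) (Z := Z) (by linarith) (by omega) hA0
    (by linarith) h.hT hTQ (by linarith) (by linarith) (by positivity)
    (by
      rw [cardL]
      push_cast
      rw [ht]
      linarith) hheavy
  refine
    { J3 := ?_, mJ := ?_, nbig := ?_, t1 := ?_, eta := ?_, small_t := hsm, sel := hsel1,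
      mott := by rw [hbB]; exact hmott, pert := ?_, selE := hsel2, offE := ?_, heavy := ?_,
      heavyE := by rw [hZc]; exact hh2 }
  · have h3 : (4 : ℝ) ≤ ((J + 1 : ℕ) : ℝ) := by
      rw [hnN]
      have h5 : (3 : ℝ) ^ 4 ≤ b ^ 4 := by gcongr
      have := pwb 4 (by omega)
      linarith
    have h4 : 4 ≤ J + 1 := by exact_mod_cast h3
    omega
  · have h3 : (m : ℝ) ≤ ((J + 1 : ℕ) : ℝ) := by rw [hnN]; linarith
    exact_mod_cast h3
  · have h3 : ((65536 * m ^ 4 : ℕ) : ℝ) ≤ ((J + 1 : ℕ) : ℝ) := by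
      rw [hnN]
      push_cast
      calc (65536 : ℝ) * (m : ℝ) ^ 4 ≤ b ^ 11 * b ^ 4 := by
            gcongr
            calc (65536 : ℝ) ≤ 3 ^ 11 := by norm_num
              _ ≤ b ^ 11 := by gcongr
        _ = b ^ 15 := by ring
        _ ≤ N := pwb 15 (by omega)
    exact_mod_cast h3
  · have h3 : (1 : ℝ) ≤ (t : ℝ) := by rw [ht]; exact h.hT
    exact_mod_cast h3
  · have h3 : 16 * (m : ℝ) * etaR J m ≤ 2 * (V ^ 4 * e) := by
      have : epO J m = 8 * m * etaR J m := rfl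
      linarith
    have h4 : V ^ 4 * e ≤ V ^ 4 / V ^ c := by
      calc V ^ 4 * e ≤ V ^ 4 * (1 / V ^ c) := by gcongr
        _ = _ := by ring
    have h5 : V ^ 4 / V ^ c ≤ 1 / V ^ 1 := pow_small hV1 (by omega)
    have h6 : 1 / V ^ 1 ≤ 1 / 3 := by
      rw [pow_one]
      exact one_div_le_one_div_of_le (by norm_num) hV3
    linarith
  · have := pert_bound (K := K) (c := c) hV3 he0 htiny hK hA0 (hAU.trans hUV) hm0 hmV hL0 hLV
      hepO0 hepO heta1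
    rw [errP]
    exact this
  · have := off_bound (K := K) (c := c) (L := N ^ K) (x := Real.exp (-((N - 1) / (m : ℝ) ^ 2))) hV3
      htiny hK hA0 (hAU.trans hUV) (Real.exp_pos _).le he1 hτ0 hτ1 hm0 hmV
      (by have := hNU'.trans hUV; gcongr) hepL
    rw [hnN]
    exact this
  · have h3 : (((J + m + cardL t + 3) ^ p : ℕ) : ℝ) ≤ (Zc : ℝ) := by
      rw [hZc]
      push_cast at hh1 ⊢
      exact hh1
    exact_mod_cast h3

/-- **NUM** -/
theorem numStmt : NumStmt := by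
  intro K p k₀
  obtain ⟨c, hc⟩ : ∃ c, 4 * K + 20 * p + 200 ≤ c := ⟨_, le_rfl⟩
  obtain ⟨E, h1, h2, hb⟩ := budget c k₀
  refine ⟨E, h1, h2, fun B J m S τ Δ hB hJ hm hmB hS1 hS2 hτ0 hΔ0 hΔ hτ2 => ?_⟩
  have hB3 : (3 : ℝ) ≤ B := by exact_mod_cast hB
  have hB1 : (1 : ℝ) ≤ B := by linarith
  have bud := hb B (by linarith)
  have hnN : ((J + 1 : ℕ) : ℝ) = (B : ℝ) ^ E.kn := by rw [hJ]; push_cast; rfl
  have hN2 : (2 : ℝ) ≤ (B : ℝ) ^ E.kn := by
    rw [← hnN]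
    exact_mod_cast (by
      have : B ≤ B ^ c := Nat.le_self_pow (by omega) B
      have h3 : B ^ c ≤ B ^ E.kn := by
        have := bud.shell
        exact_mod_cast this
      omega : 2 ≤ J + 1)
  have par : Par c (B : ℝ) ((B : ℝ) ^ E.kn) ((B : ℝ) ^ E.ks) ((B : ℝ) ^ E.kS) ((B : ℝ) ^ E.kt)
      ((B : ℝ) ^ E.kZ) :=
    { hb := hB3, hA := one_le_pow₀ hB1, hP := one_le_pow₀ hB1, hT := one_le_pow₀ hB1,
      hZ := one_le_pow₀ hB1, shell := bud.shell, mott := bud.mott, sel := bud.sel,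
      latt := bud.latt, heavy := bud.heavy
      tiny := by
        refine (bud.tiny_exp (by linarith) hN2).trans
          (one_div_le_one_div_of_le (by positivity) (pow_le_pow_left₀ (by positivity) ?_ c))
        have h5 : (1 : ℝ) ≤ (B : ℝ) ^ E.kt := one_le_pow₀ hB1
        have h6 : (1 : ℝ) ≤ (B : ℝ) ^ E.kZ := one_le_pow₀ hB1
        calc (B : ℝ) * (B : ℝ) ^ E.kn * (B : ℝ) ^ E.ks * (B : ℝ) ^ E.kS ≤
            (B : ℝ) * (B : ℝ) ^ E.kn * (B : ℝ) ^ E.ks * (B : ℝ) ^ E.kS * (B : ℝ) ^ E.kt :=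
              le_mul_of_one_le_right (by positivity) h5
          _ ≤ _ := le_mul_of_one_le_right (by positivity) h6 }
  exact par.nums hc rfl hnN (by push_cast; rfl) (by push_cast; rfl) hm (by exact_mod_cast hmB) hS1
    hS2 hτ0 hΔ0 (by rw [hnN] at hΔ; exact hΔ) hτ2

end Vale.Agent.P370.H207
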