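import Vale.Agent.P370.H207.DPT
import Vale.Agent.P370.H305.Iface

/-!
Inputs of the program of the second half (`ProgStmt`): values of the rings at points with
approximable coordinates, the charge matrix `Dm` and the overlap integrals `Mm`.
-/

namespace Vale.Agent.P370.H207

open Vale.Agent.Lib.PolyTime Function MeasureTheory Set
open Vale.Agent.P370.H855 Vale.Agent.P370.H115 Vale.Agent.P363.R.H10

variable {α β γ : Type*} [Enc α] [Enc β] [Enc γ]

theorem eq_p3 (X : R3) : X = p3 (X 0) (X 1) (X 2) := by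
  ext i
  fin_cases i <;> simp [p3]

variable {n m i e : α → ℕ} {X : α → R3} {Bd : α → ℕ}

theorem PTR_cos_rang (hm : PT ∅ m) (hi : PT ∅ i) (hib : PBd i) :
    PTR (fun x => Real.cos (rang (m x) (i x))) :=
  PTR.cos (PTR.rang hm hi) (B := fun x => 4 * i x) ((PT.const 4).mul hi) ((PBd.const 4).mul hib)
    fun _ => abs_rang_le _ _

theorem PTR_sin_rang (hm : PT ∅ m) (hi : PT ∅ i) (hib : PBd i) :
    PTR (fun x => Real.sin (rang (m x) (i x))) :=
  PTR.sin (PTR.rang hm hi) (B := fun x => 4 * i x) ((PT.const 4).mul hi) ((PBd.const 4).mul hib)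
    fun _ => abs_rang_le _ _

theorem PTR_wco (hm : PT ∅ m) (hi : PT ∅ i) (hib : PBd i) (hX : ∀ j, PTR (fun x => X x j)) :
    PTR (fun x => -Real.sin (rang (m x) (i x)) * X x 0 + Real.cos (rang (m x) (i x)) * X x 1) :=
  ((PTR_sin_rang hm hi hib).neg.mul (hX 0)).add ((PTR_cos_rang hm hi hib).mul (hX 1))

/-- the real part of the powers of `ζ·x` -/
theorem PTR_zet_re (hm : PT ∅ m) (hi : PT ∅ i) (hib : PBd i) (hX : ∀ j, PTR (fun x => X x j))
    (he : PT ∅ e) (heb : PBd e) : PTR (fun x => ((zet (rang (m x) (i x)) (X x)) ^ e x).re) :=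
  PTR.cpow_re (hX 2) (PTR_wco hm hi hib hX) he heb

/-- the imaginary part of the powers of `ζ·x` -/
theorem PTR_zet_im (hm : PT ∅ m) (hi : PT ∅ i) (hib : PBd i) (hX : ∀ j, PTR (fun x => X x j))
    (he : PT ∅ e) (heb : PBd e) : PTR (fun x => ((zet (rang (m x) (i x)) (X x)) ^ e x).im) :=
  PTR.cpow_im (hX 2) (PTR_wco hm hi hib hX) he heb

/-- the norm -/
theorem PTR_norm (hX : ∀ j, PTR (fun x => X x j)) : PTR (fun x => ‖X x‖) :=
  (PTR.norm (hX 0) (hX 1) (hX 2)).congr fun x => by rw [← eq_p3]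

theorem norm_le_of_coord {X : R3} {B : ℝ} (h : ∀ j, |X j| ≤ B) : ‖X‖ ≤ 3 * B := by
  rw [eq_p3 X]
  refine (norm_p3_le _ _ _).trans ?_
  linarith [h 0, h 1, h 2]

/-- `e^{-|X|/n}` -/
theorem PTR_expNorm (hn : PT ∅ n) (hX : ∀ j, PTR (fun x => X x j)) (hB : PT ∅ Bd) (hBb : PBd Bd)
    (hb : ∀ x j, |X x j| ≤ Bd x) : PTR (fun x => Real.exp (-‖X x‖ / n x)) :=
  (PTR.expNorm (hX 0) (hX 1) (hX 2) hn (B := fun x => 3 * Bd x) ((PT.const 3).mul hB)
    ((PBd.const 3).mul hBb) fun x => by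
      rw [← eq_p3]
      refine (norm_le_of_coord (hb x)).trans (le_of_eq ?_)
      push_cast
      ring).congr fun x => by rw [← eq_p3]

/-- the value of `ringC` -/
theorem PTR_ringC (hn : PT ∅ n) (hnb : PBd n) (hm : PT ∅ m) (hi : PT ∅ i) (hib : PBd i)
    (hX : ∀ j, PTR (fun x => X x j)) (hB : PT ∅ Bd) (hBb : PBd Bd) (hb : ∀ x j, |X x j| ≤ Bd x) :
    PTR (fun x => ringC (n x) (rang (m x) (i x)) (X x)) :=
  ((PTR.cn hn hnb).mul (PTR_zet_re hm hi hib hX (hn.sub (PT.const 1))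
    (hnb.mono fun _ => Nat.sub_le _ _))).mul (PTR_expNorm hn hX hB hBb hb)

/-- the value of `ringS` -/
theorem PTR_ringS (hn : PT ∅ n) (hnb : PBd n) (hm : PT ∅ m) (hi : PT ∅ i) (hib : PBd i)
    (hX : ∀ j, PTR (fun x => X x j)) (hB : PT ∅ Bd) (hBb : PBd Bd) (hb : ∀ x j, |X x j| ≤ Bd x) :
    PTR (fun x => ringS (n x) (rang (m x) (i x)) (X x)) :=
  ((PTR.cn hn hnb).mul (PTR_zet_im hm hi hib hX (hn.sub (PT.const 1))
    (hnb.mono fun _ => Nat.sub_le _ _))).mul (PTR_expNorm hn hX hB hBb hb)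

/-- **the charge matrix** -/
theorem PTW_Dm {a b : α → ℕ} (hn : PT ∅ n) (hnb : PBd n) (hn2 : ∀ x, 2 ≤ n x) (hm : PT ∅ m)
    (ha : PT ∅ a) (hab : PBd a) (hb : PT ∅ b) (hbb : PBd b) :
    PTW (fun x => H305.Dm (n x) (m x) (a x) (b x)) :=
  PTW.charge hn hnb hn2 hm ha hab hb hbb

/-! ### The overlap integrals `M_ab` -/

/-- half the side of the cube -/
def mA (n t : ℕ) : ℕ := 1024 * n ^ 3 * t
/-- inverse mesh -/
def mq (n t : ℕ) : ℕ := 256 * mA n t ^ 3 * t

/-- the grid sum -/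
noncomputable def msum (n t : ℕ) (a b : ℝ) : ℝ :=
  (1 / (mq n t : ℝ)) ^ 3 * ∑ c ∈ grid (mA n t) (mq n t),
    ringC n a (gpt (mq n t) c) ^ 2 * ringC n b (gpt (mq n t) c) ^ 2

theorem ringC_sq_lip {n : ℕ} (hn : 2 ≤ n) (a : ℝ) (x y : R3) :
    |ringC n a x ^ 2 - ringC n a y ^ 2| ≤ 4 * ‖x - y‖ :=
  (rf_ringC hn a one_pos).lip x y

theorem ringC_sq_le_one {n : ℕ} (hn : 2 ≤ n) (a : ℝ) (x : R3) : ringC n a x ^ 2 ≤ 1 := by
  rw [sq_le_one_iff_abs_le_one]
  exact abs_ringC_le hn a x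

theorem integrable_mm {n : ℕ} (hn : 2 ≤ n) (a b : ℝ) :
    Integrable fun x => ringC n a x ^ 2 * ringC n b x ^ 2 := by
  refine (integrable_ringC_sq hn a).mono' (((continuous_ringC hn a).pow 2).mul
    ((continuous_ringC hn b).pow 2)).aestronglyMeasurable (Filter.Eventually.of_forall fun x => ?_)
  rw [Real.norm_of_nonneg (by positivity)]
  exact mul_le_of_le_one_right (sq_nonneg _) (ringC_sq_le_one hn b x)

theorem msum_err {n t : ℕ} (hn : 2 ≤ n) (ht : 0 < t) (a b : ℝ) :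
    |(∫ x, ringC n a x ^ 2 * ringC n b x ^ 2) - msum n t a b| ≤ 1 / t := by
  have hn' : (1 : ℝ) ≤ n := by exact_mod_cast (by omega : 1 ≤ n)
  have ht' : (1 : ℝ) ≤ t := by exact_mod_cast ht
  have hA : 0 < mA n t := by unfold mA; positivity
  have hq : 0 < mq n t := by unfold mq; positivity
  set A : ℝ := (mA n t : ℝ) with hAd
  set q : ℝ := (mq n t : ℝ) with hqd
  have hA1 : A = 1024 * n ^ 3 * t := by rw [hAd]; unfold mA; push_cast; ring
  have hq1 : q = 256 * A ^ 3 * t := by rw [hqd]; unfold mq; push_cast; ring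
  have hA0 : 0 < A := by rw [hA1]; positivity
  have hi := integrable_mm hn a b
  have h1 := riemann_cube (A := mA n t) hq (u := fun x => ringC n a x ^ 2 * ringC n b x ^ 2)
    (L := 8) (by norm_num) (by
      intro c _ x _
      have e1 : ringC n a x ^ 2 * ringC n b x ^ 2 - ringC n a (gpt (mq n t) c) ^ 2 *
          ringC n b (gpt (mq n t) c) ^ 2 =
          (ringC n a x ^ 2 - ringC n a (gpt (mq n t) c) ^ 2) * ringC n b x ^ 2 +
          ringC n a (gpt (mq n t) c) ^ 2 *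
            (ringC n b x ^ 2 - ringC n b (gpt (mq n t) c) ^ 2) := by ring
      rw [e1]
      refine (abs_add_le _ _).trans ?_
      rw [abs_mul, abs_mul, abs_of_nonneg (sq_nonneg (ringC n b x)),
        abs_of_nonneg (sq_nonneg (ringC n a (gpt (mq n t) c)))]
      have h2 := ringC_sq_lip hn a x (gpt (mq n t) c)
      have h3 := ringC_sq_lip hn b x (gpt (mq n t) c)
      have h4 := ringC_sq_le_one hn b x
      have h5 := ringC_sq_le_one hn a (gpt (mq n t) c)
      calc _ ≤ (4 * ‖x - gpt (mq n t) c‖) * 1 + 1 * (4 * ‖x - gpt (mq n t) c‖) :=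
            add_le_add (mul_le_mul h2 h4 (sq_nonneg _) (by positivity))
              (mul_le_mul h5 h3 (abs_nonneg _) (by norm_num))
        _ = _ := by ring) hi.integrableOn
  have h2 : (∫ x, ringC n a x ^ 2 * ringC n b x ^ 2) =
      (∫ x in cube A, ringC n a x ^ 2 * ringC n b x ^ 2) +
      ∫ x in (cube A)ᶜ, ringC n a x ^ 2 * ringC n b x ^ 2 :=
    (integral_add_compl (measurableSet_cube _) hi).symm
  have h3 : |∫ x in (cube A)ᶜ, ringC n a x ^ 2 * ringC n b x ^ 2| ≤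
      8 * ((2 * n + 6 : ℕ) : ℝ) ^ 6 * (n : ℝ) ^ 7 / A ^ 6 := by
    refine le_trans ?_ (rf_ringC hn a hA).tail
    rw [← Real.norm_eq_abs]
    refine norm_integral_le_of_norm_le (integrable_ringC_sq hn a).abs.integrableOn
      (Filter.Eventually.of_forall fun x => ?_)
    rw [Real.norm_of_nonneg (by positivity), abs_of_nonneg (sq_nonneg _)]
    exact mul_le_of_le_one_right (sq_nonneg _) (ringC_sq_le_one hn b x)
  have h4 : 8 * ((2 * n + 6 : ℕ) : ℝ) ^ 6 * (n : ℝ) ^ 7 / A ^ 6 ≤ (1 / 2) / t := by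
    have e1 : ((2 * n + 6 : ℕ) : ℝ) ≤ 8 * n := by push_cast; linarith
    rw [div_le_div_iff₀ (by positivity) (by positivity)]
    calc 8 * ((2 * n + 6 : ℕ) : ℝ) ^ 6 * (n : ℝ) ^ 7 * t ≤ 8 * (8 * n) ^ 6 * n ^ 7 * t := by gcongr
      _ = 2 ^ 21 * (n : ℝ) ^ 13 * t := by ring
      _ ≤ 2 ^ 59 * (n : ℝ) ^ 18 * t ^ 6 := by
          have : (n : ℝ) ^ 13 ≤ n ^ 18 := pow_le_pow_right₀ hn' (by norm_num)
          have h6 : (t : ℝ) ≤ t ^ 6 := le_self_pow₀ ht' (by norm_num)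
          have h7 : (2 : ℝ) ^ 21 ≤ 2 ^ 59 := by norm_num
          gcongr
      _ = 1 / 2 * A ^ 6 := by rw [hA1]; ring
  have h5 : 16 * (A : ℝ) ^ 3 * 8 / q = (1 / 2) / t := by
    rw [hq1]
    field_simp
    norm_num
  rw [h2]
  have e : ∀ a b c : ℝ, a + b - c = (a - c) + b := by intros; ring
  unfold msum
  rw [e]
  refine (abs_add_le _ _).trans ?_
  have h6 : (1 : ℝ) / t = (1 / 2) / t + (1 / 2) / t := by ring
  rw [h6]
  exact add_le_add (h1.trans (le_of_eq h5)) (h3.trans h4)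

/-- the grid sum of the overlap integral -/
theorem PTR.mgrid (hn : PT ∅ n) (hnb : PBd n) {A q : α → ℕ} (hA : PT ∅ A) (hAb : PBd A)
    (hq : PT ∅ q) (hqb : PBd q) {b b' : α → ℝ} (hb : PTR b) (hb' : PTR b') {B : α → ℕ}
    (hB : PT ∅ B) (hBb : PBd B) (hbB : ∀ a, |b a| ≤ B a) (hbB' : ∀ a, |b' a| ≤ B a) :
    PTR (fun a => (1 / (q a : ℝ)) ^ 3 * ∑ c ∈ grid (A a) (q a),
      H115.ringC (n a) (b a) (gpt (q a) c) ^ 2 * H115.ringC (n a) (b' a) (gpt (q a) c) ^ 2) := by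
  have hq3 : PTR (fun a => (1 / (q a : ℝ)) ^ 3) :=
    ((PTR.ofFrac (PT.const 1) hq).powConst 3).congr fun a => by push_cast; rfl
  have hN : PT ∅ (fun a => 2 * (A a * q a)) := (PT.const 2).mul (hA.mul hq)
  have hNb : PBd (fun a => 2 * (A a * q a)) := (PBd.const 2).mul (hAb.mul hqb)
  refine (hq3.mul (PTR.sum3 hN hNb (F := fun a i j l =>
    H115.ringC (n a) (b a) (npt (A a) (q a) i j l) ^ 2 *
      H115.ringC (n a) (b' a) (npt (A a) (q a) i j l) ^ 2) ?_)).congr fun a => ?_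
  · exact PTR.mul (PTR.ringNpt hn hnb hA hAb hq hb hB hBb hbB)
      (PTR.ringNpt hn hnb hA hAb hq hb' hB hBb hbB')
  · congr 1
    exact (sum_grid (A a) (q a) (fun X => H115.ringC (n a) (b a) X ^ 2 *
      H115.ringC (n a) (b' a) X ^ 2)).symm

/-- **the overlap integrals of two rings** -/
theorem PTW_Mm {a b : α → ℕ} (hn : PT ∅ n) (hnb : PBd n) (hn2 : ∀ x, 2 ≤ n x) (hm : PT ∅ m)
    (ha : PT ∅ a) (hab : PBd a) (hb : PT ∅ b) (hbb : PBd b) :
    PTW (fun x => H305.Mm (n x) (m x) (a x) (b x)) := by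
  refine PTW.limit (F := fun x k => msum (n x) (k + 1) (rang (m x) (a x)) (rang (m x) (b x)))
    (PTR.toPTW ?_) fun x k => ?_
  · have a1 : PT ∅ (fun p : α × Un => p.1) := PT.fst'
    have t1 : PT ∅ (fun p : α × Un => p.2.v + 1) := PT_precv.add (PT.const 1)
    have t1b : PBd (fun p : α × Un => p.2.v + 1) := PBd_precv.add (PBd.const 1)
    have n1 : PT ∅ (fun p : α × Un => n p.1) := hn.comp a1
    have n1b : PBd (fun p : α × Un => n p.1) := hnb.comp (A := ∅) a1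
    have hA : PT ∅ (fun p : α × Un => mA (n p.1) (p.2.v + 1)) :=
      ((PT.const 1024).mul (n1.powConst 3)).mul t1
    have hAb : PBd (fun p : α × Un => mA (n p.1) (p.2.v + 1)) :=
      ((PBd.const 1024).mul (n1b.pow 3)).mul t1b
    have hq : PT ∅ (fun p : α × Un => mq (n p.1) (p.2.v + 1)) :=
      ((PT.const 256).mul (hA.powConst 3)).mul t1
    have hqb : PBd (fun p : α × Un => mq (n p.1) (p.2.v + 1)) :=
      ((PBd.const 256).mul (hAb.pow 3)).mul t1b
    exact PTR.mgrid n1 n1b hA hAb hq hqb ((PTR.rang hm ha).comp a1) ((PTR.rang hm hb).comp a1)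
      (B := fun p => 4 * a p.1 + 4 * b p.1)
      ((((PT.const 4).mul ha).add ((PT.const 4).mul hb)).comp a1)
      ((((PBd.const 4).mul hab).add ((PBd.const 4).mul hbb)).comp (A := ∅) a1)
      (fun p => (abs_rang_le _ _).trans (by exact_mod_cast Nat.le_add_right _ _))
      (fun p => (abs_rang_le _ _).trans (by exact_mod_cast Nat.le_add_left _ _))
  · have := msum_err (hn2 x) (Nat.succ_pos k) (rang (m x) (a x)) (rang (m x) (b x))
    refine this.trans (le_of_eq ?_)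
    push_cast
    rfl

end Vale.Agent.P370.H207
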