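import Vale.Agent.P370.H207.Coul

/-!
Radial integrals `∫ ‖x‖^k e^{-c‖x‖} dx = 4π (k+2)! / c^(k+3)` on `ℝ³`.
-/

namespace Vale.Agent.P370.H207

open MeasureTheory Set Metric
open scoped ENNReal Nat

noncomputable section

theorem rad_aux (k : ℕ) {c : ℝ} (hc : 0 < c) :
    IntegrableOn (fun y : ℝ => y ^ 2 • (y ^ k * Real.exp (-c * y))) (Ioi 0) ∧
    ∫ y in Ioi (0 : ℝ), y ^ 2 • (y ^ k * Real.exp (-c * y)) = ((k + 2)! : ℝ) / c ^ (k + 3) := by
  have e : ∀ y ∈ Ioi (0 : ℝ), y ^ 2 • (y ^ k * Real.exp (-c * y)) =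
      y ^ (((k + 3 : ℕ) : ℝ) - 1) * Real.exp (-(c * y)) := by
    intro y hy
    have hy' : (0 : ℝ) < y := hy
    rw [show (((k + 3 : ℕ) : ℝ) - 1) = ((k + 2 : ℕ) : ℝ) by push_cast; ring, Real.rpow_natCast,
      smul_eq_mul, neg_mul, ← mul_assoc]
    congr 1
    ring
  constructor
  · refine (integrableOn_congr_fun e measurableSet_Ioi).2 ?_
    have h := Real.integral_rpow_mul_exp_neg_mul_Ioi (a := ((k + 3 : ℕ) : ℝ)) (by positivity) hc
    by_contra hcon
    have h0 : ∫ t in Ioi (0 : ℝ), t ^ (((k + 3 : ℕ) : ℝ) - 1) * Real.exp (-(c * t)) = 0 :=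
      integral_undef hcon
    rw [h0] at h
    have : 0 < (1 / c) ^ (((k + 3 : ℕ) : ℝ)) * Real.Gamma ((k + 3 : ℕ) : ℝ) := by
      have := Real.Gamma_pos_of_pos (show (0 : ℝ) < ((k + 3 : ℕ) : ℝ) by positivity)
      positivity
    linarith
  · rw [setIntegral_congr_fun measurableSet_Ioi e,
      Real.integral_rpow_mul_exp_neg_mul_Ioi (by positivity) hc]
    rw [show ((k + 3 : ℕ) : ℝ) = ((k + 2 : ℕ) : ℝ) + 1 by push_cast; ring, Real.Gamma_nat_eq_factorial,
      show ((k + 2 : ℕ) : ℝ) + 1 = ((k + 3 : ℕ) : ℝ) by push_cast; ring, Real.rpow_natCast, one_div,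
      inv_pow]
    field_simp

theorem integrable_pow_exp (k : ℕ) {c : ℝ} (hc : 0 < c) :
    Integrable fun x : R3 => ‖x‖ ^ k * Real.exp (-c * ‖x‖) := by
  have h2 : Module.finrank ℝ R3 - 1 = 2 := by simp
  have h := (integrable_fun_norm_addHaar (volume : Measure R3)
    (f := fun r : ℝ => r ^ k * Real.exp (-c * r))).2
  rw [h2] at h
  exact h (rad_aux k hc).1

theorem integral_pow_exp (k : ℕ) {c : ℝ} (hc : 0 < c) :
    ∫ x : R3, ‖x‖ ^ k * Real.exp (-c * ‖x‖) = 4 * Real.pi * ((k + 2)! : ℝ) / c ^ (k + 3) := by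
  have h := integral_fun_norm_addHaar (volume : Measure R3)
    (fun r : ℝ => r ^ k * Real.exp (-c * r))
  have h2 : Module.finrank ℝ R3 = 3 := by simp
  rw [h, h2, measureReal_def, EuclideanSpace.volume_ball_fin_three]
  have h3 := (rad_aux k hc).2
  rw [show 3 - 1 = 2 from rfl, h3]
  simp only [ENNReal.ofReal_one, one_pow, one_mul, nsmul_eq_mul, smul_eq_mul]
  rw [ENNReal.toReal_ofReal (by positivity)]
  push_cast
  ring

end

end Vale.Agent.P370.H207
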