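import Mathlib

/-!
Riemann sums on `ℝ³` over the cubic grid of mesh `1/q` in the cube `[-A, A)³`, with an explicit
error bound for Lipschitz functions.
-/

namespace Vale.Agent.P370.H207

open MeasureTheory Set
open scoped ENNReal

noncomputable section

abbrev R3 : Type := EuclideanSpace ℝ (Fin 3)

/-- the integer coordinates of the grid points in the cube `[-A, A)³` with mesh `1/q` -/
def grid (A q : ℕ) : Finset (Fin 3 → ℤ) :=
  Fintype.piFinset fun _ => Finset.Ico (-((A * q : ℕ) : ℤ)) ((A * q : ℕ) : ℤ)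

/-- the grid point with integer coordinates `a` -/
def gpt (q : ℕ) (a : Fin 3 → ℤ) : R3 := WithLp.toLp 2 fun i => (a i : ℝ) / q

@[simp] theorem gpt_apply (q : ℕ) (a : Fin 3 → ℤ) (i : Fin 3) : gpt q a i = (a i : ℝ) / q := rfl

/-- the grid cell -/
def cell (q : ℕ) (a : Fin 3 → ℤ) : Set R3 := {x | ∀ i, x i ∈ Ico ((a i : ℝ) / q) (((a i : ℝ) + 1) / q)}

/-- the half-open cube -/
def cube (A : ℝ) : Set R3 := {x | ∀ i, x i ∈ Ico (-A) A}

theorem cell_eq (q : ℕ) (a : Fin 3 → ℤ) :
    cell q a = (WithLp.ofLp : R3 → (Fin 3 → ℝ)) ⁻¹'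
      (Set.pi univ fun i => Ico ((a i : ℝ) / q) (((a i : ℝ) + 1) / q)) := by
  ext x
  simp [cell]

theorem measurableSet_cell (q : ℕ) (a : Fin 3 → ℤ) : MeasurableSet (cell q a) := by
  rw [cell_eq]
  exact (PiLp.volume_preserving_ofLp (Fin 3)).measurable
    (MeasurableSet.univ_pi fun i => measurableSet_Ico)

theorem volume_cell {q : ℕ} (hq : 0 < q) (a : Fin 3 → ℤ) :
    volume (cell q a) = ENNReal.ofReal ((1 / (q : ℝ)) ^ 3) := by
  rw [cell_eq, (PiLp.volume_preserving_ofLp (Fin 3)).measure_preimage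
    (MeasurableSet.univ_pi fun i => measurableSet_Ico).nullMeasurableSet, volume_pi_pi]
  have h : ∀ i : Fin 3, volume (Ico ((a i : ℝ) / q) (((a i : ℝ) + 1) / q)) =
      ENNReal.ofReal (1 / (q : ℝ)) := by
    intro i
    rw [Real.volume_Ico]
    congr 1
    ring
  simp only [h, Finset.prod_const, Finset.card_univ, Fintype.card_fin]
  rw [ENNReal.ofReal_pow (by positivity)]

theorem measurableSet_cube (A : ℝ) : MeasurableSet (cube A) := by
  have : cube A = (WithLp.ofLp : R3 → (Fin 3 → ℝ)) ⁻¹'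
      (Set.pi univ fun _ => Ico (-A) A) := by
    ext x
    simp [cube]
  rw [this]
  exact (PiLp.volume_preserving_ofLp (Fin 3)).measurable
    (MeasurableSet.univ_pi fun i => measurableSet_Ico)

theorem cell_disjoint {q : ℕ} (hq : 0 < q) {a b : Fin 3 → ℤ} (h : a ≠ b) :
    Disjoint (cell q a) (cell q b) := by
  rw [Set.disjoint_left]
  intro x ha hb
  apply h
  funext i
  have hq' : (0 : ℝ) < q := by exact_mod_cast hq
  have h1 := ha i
  have h2 := hb i
  simp only [mem_Ico, div_le_iff₀ hq', lt_div_iff₀ hq'] at h1 h2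
  have h3 : (a i : ℝ) < b i + 1 := lt_of_le_of_lt h1.1 h2.2
  have h4 : (b i : ℝ) < a i + 1 := lt_of_le_of_lt h2.1 h1.2
  have h3' : a i < b i + 1 := by exact_mod_cast h3
  have h4' : b i < a i + 1 := by exact_mod_cast h4
  omega

theorem cube_eq {A q : ℕ} (hq : 0 < q) : cube (A : ℝ) = ⋃ a ∈ grid A q, cell q a := by
  have hq' : (0 : ℝ) < q := by exact_mod_cast hq
  ext x
  simp only [mem_iUnion, exists_prop]
  constructor
  · intro hx
    refine ⟨fun i => ⌊x i * q⌋, ?_, ?_⟩
    · simp only [grid, Fintype.mem_piFinset, Finset.mem_Ico]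
      intro i
      have h := hx i
      simp only [mem_Ico] at h
      constructor
      · rw [Int.le_floor]
        push_cast
        nlinarith [h.1]
      · rw [Int.floor_lt]
        push_cast
        nlinarith [h.2]
    · intro i
      simp only [mem_Ico, div_le_iff₀ hq', lt_div_iff₀ hq']
      exact ⟨Int.floor_le _, Int.lt_floor_add_one _⟩
  · rintro ⟨a, ha, hx⟩ i
    simp only [grid, Fintype.mem_piFinset, Finset.mem_Ico] at ha
    have h := hx i
    simp only [mem_Ico, div_le_iff₀ hq', lt_div_iff₀ hq'] at h ⊢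
    have h1 : -((A : ℝ) * q) ≤ a i := by exact_mod_cast (ha i).1
    have h2 : (a i : ℝ) + 1 ≤ (A : ℝ) * q := by
      have := (ha i).2
      have h3 : a i + 1 ≤ ((A * q : ℕ) : ℤ) := by omega
      exact_mod_cast h3
    constructor
    · by_contra hc
      push Not at hc
      nlinarith
    · by_contra hc
      push Not at hc
      nlinarith

theorem card_grid (A q : ℕ) : (grid A q).card = (2 * (A * q)) ^ 3 := by
  simp only [grid, Fintype.card_piFinset, Int.card_Ico, Finset.prod_const, Finset.card_univ,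
    Fintype.card_fin]
  congr 1
  omega

theorem dist_cell {q : ℕ} (hq : 0 < q) {a : Fin 3 → ℤ} {x : R3} (hx : x ∈ cell q a) :
    ‖x - gpt q a‖ ≤ 2 / q := by
  have hq' : (0 : ℝ) < q := by exact_mod_cast hq
  rw [EuclideanSpace.norm_eq]
  apply Real.sqrt_le_iff.2
  refine ⟨by positivity, ?_⟩
  have h : ∀ i, ‖(x - gpt q a) i‖ ^ 2 ≤ (1 / q) ^ 2 := by
    intro i
    have h1 := hx i
    simp only [mem_Ico] at h1
    have h2 : ((a i : ℝ) + 1) / q = (a i : ℝ) / q + 1 / q := by ring
    rw [h2] at h1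
    simp only [PiLp.sub_apply, gpt_apply, Real.norm_eq_abs, sq_abs]
    have : (0 : ℝ) ≤ x i - (a i : ℝ) / q := by linarith [h1.1]
    exact pow_le_pow_left₀ this (by linarith [h1.2]) 2
  calc ∑ i, ‖(x - gpt q a) i‖ ^ 2 ≤ ∑ _i : Fin 3, (1 / (q : ℝ)) ^ 2 :=
        Finset.sum_le_sum fun i _ => h i
    _ = 3 * (1 / (q : ℝ)) ^ 2 := by simp
    _ ≤ (2 / q) ^ 2 := by
        have : (0 : ℝ) ≤ (1 / (q : ℝ)) ^ 2 := by positivity
        have h4 : (2 / (q : ℝ)) ^ 2 = 4 * (1 / (q : ℝ)) ^ 2 := by ring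
        linarith

/-- **Riemann sum on the cube** for a function which is `L`-Lipschitz on the cube. -/
theorem riemann_cube {A q : ℕ} (hq : 0 < q) {u : R3 → ℝ} {L : ℝ} (hL : 0 ≤ L)
    (hu : ∀ a ∈ grid A q, ∀ x ∈ cell q a, |u x - u (gpt q a)| ≤ L * ‖x - gpt q a‖)
    (hi : IntegrableOn u (cube A)) :
    |(∫ x in cube A, u x) - (1 / (q : ℝ)) ^ 3 * ∑ a ∈ grid A q, u (gpt q a)| ≤
      16 * (A : ℝ) ^ 3 * L / q := by
  have hq' : (0 : ℝ) < q := by exact_mod_cast hq
  have hint : ∀ a ∈ grid A q, IntegrableOn u (cell q a) := by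
    intro a ha
    refine hi.mono_set ?_
    rw [cube_eq hq]
    exact subset_biUnion_of_mem (u := fun a => cell q a) ha
  rw [cube_eq hq, integral_biUnion_finset _ (fun a _ => measurableSet_cell q a)
    (fun a _ b _ h => cell_disjoint hq h) hint, Finset.mul_sum, ← Finset.sum_sub_distrib]
  refine (Finset.abs_sum_le_sum_abs _ _).trans ?_
  have hb : ∀ a ∈ grid A q, |(∫ x in cell q a, u x) - (1 / (q : ℝ)) ^ 3 * u (gpt q a)| ≤
      L * (2 / q) * (1 / (q : ℝ)) ^ 3 := by
    intro a ha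
    have hv : (volume (cell q a)) < ⊤ := by rw [volume_cell hq]; exact ENNReal.ofReal_lt_top
    have hvr : volume.real (cell q a) = (1 / (q : ℝ)) ^ 3 := by
      rw [measureReal_def, volume_cell hq, ENNReal.toReal_ofReal (by positivity)]
    have h1 : (1 / (q : ℝ)) ^ 3 * u (gpt q a) = ∫ _x in cell q a, u (gpt q a) := by
      rw [setIntegral_const, hvr, smul_eq_mul]
    rw [h1, ← integral_sub (hint a ha) (integrableOn_const hv.ne)]
    have h2 := norm_setIntegral_le_of_norm_le_const (μ := volume) (s := cell q a)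
      (f := fun x => u x - u (gpt q a)) (C := L * (2 / q)) hv (fun x hx => by
        rw [Real.norm_eq_abs]
        exact (hu a ha x hx).trans (mul_le_mul_of_nonneg_left (dist_cell hq hx) hL))
    rw [hvr, Real.norm_eq_abs] at h2
    exact h2
  refine (Finset.sum_le_sum hb).trans ?_
  rw [Finset.sum_const, card_grid, nsmul_eq_mul]
  push_cast
  have : (2 * ((A : ℝ) * q)) ^ 3 * (L * (2 / q) * (1 / (q : ℝ)) ^ 3) = 16 * (A : ℝ) ^ 3 * L / q := by
    field_simp
    ring
  exact this.le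

end

end Vale.Agent.P370.H207
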