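import Vale.Agent.P370.H207.Rad
import Vale.Agent.P370.H115.RingDefs

/-!
The density `ringC n a ^ 2` of a ring orbital is bounded, Lipschitz, of finite mass and with
polynomially small tails.
-/

namespace Vale.Agent.P370.H207

open MeasureTheory Set Metric
open Vale.Agent.P370.H115
open scoped ENNReal Nat

noncomputable section

theorem zet_sub (a : ℝ) (x y : R3) : zet a x - zet a y = zet a (x - y) := by
  apply Complex.ext
  · simp [zet]
  · simp [zet]
    ring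

theorem norm_zet_le (a : ℝ) (x : R3) : ‖zet a x‖ ≤ ‖x‖ := by
  rw [EuclideanSpace.norm_eq, Complex.norm_eq_sqrt_sq_add_sq]
  apply Real.sqrt_le_sqrt
  simp only [zet, Fin.sum_univ_three, Real.norm_eq_abs, sq_abs]
  nlinarith [Real.sin_sq_add_cos_sq a, sq_nonneg (Real.cos a * x 0 + Real.sin a * x 1),
    sq_nonneg (x 0), sq_nonneg (x 1)]

/-- `(ζ·x)^J e^{-|x|/n}` -/
def zE (n : ℕ) (a : ℝ) (x : R3) : ℂ := (zet a x) ^ (n - 1) * (Real.exp (-‖x‖ / n) : ℂ)

theorem ringC_eq (n : ℕ) (a : ℝ) (x : R3) : ringC n a x = cn n * (zE n a x).re := by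
  unfold ringC zE
  rw [Complex.re_mul_ofReal]
  ring

theorem pow_exp_le {n : ℕ} (hn : 0 < n) {s : ℝ} (hs : 0 ≤ s) (J : ℕ) :
    s ^ J * Real.exp (-s / n) ≤ (n : ℝ) ^ J * J ! := by
  have hn' : (0 : ℝ) < n := by exact_mod_cast hn
  have h := Real.pow_div_factorial_le_exp (x := s / n) (by positivity) J
  rw [div_le_iff₀ (by positivity), div_pow, div_le_iff₀ (by positivity)] at h
  have h2 : Real.exp (-s / n) * Real.exp (s / n) = 1 := by
    rw [← Real.exp_add]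
    simp [neg_div]
  have h3 : 0 < Real.exp (-s / n) := Real.exp_pos _
  calc s ^ J * Real.exp (-s / n) ≤ (Real.exp (s / n) * J ! * n ^ J) * Real.exp (-s / n) :=
        mul_le_mul_of_nonneg_right h h3.le
    _ = (Real.exp (-s / n) * Real.exp (s / n)) * (n ^ J * J !) := by ring
    _ = _ := by rw [h2, one_mul]

theorem norm_zE_le {n : ℕ} (hn : 0 < n) (a : ℝ) (x : R3) :
    ‖zE n a x‖ ≤ (n : ℝ) ^ (n - 1) * (n - 1)! := by
  unfold zE
  rw [norm_mul, norm_pow, Complex.norm_real, Real.norm_of_nonneg (Real.exp_pos _).le]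
  refine le_trans ?_ (pow_exp_le hn (norm_nonneg x) (n - 1))
  gcongr
  exact norm_zet_le a x

theorem pow_sub_pow_norm_le (z w : ℂ) (t : ℝ) (hz : ‖z‖ ≤ t) (hw : ‖w‖ ≤ t) (J : ℕ) :
    ‖z ^ J - w ^ J‖ ≤ J * t ^ (J - 1) * ‖z - w‖ := by
  have ht : 0 ≤ t := (norm_nonneg _).trans hz
  induction J with
  | zero => simp
  | succ J ih =>
    have e : z ^ (J + 1) - w ^ (J + 1) = z * (z ^ J - w ^ J) + (z - w) * w ^ J := by ring
    rw [e]
    refine (norm_add_le _ _).trans ?_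
    rw [norm_mul, norm_mul, norm_pow]
    have h1 : ‖z‖ * ‖z ^ J - w ^ J‖ ≤ t * (J * t ^ (J - 1) * ‖z - w‖) :=
      mul_le_mul hz ih (norm_nonneg _) ht
    have h2 : ‖z - w‖ * ‖w‖ ^ J ≤ ‖z - w‖ * t ^ J := by gcongr
    refine (add_le_add h1 h2).trans ?_
    rcases Nat.eq_zero_or_pos J with hJ | hJ
    · subst hJ
      simp
    · have e2 : t * t ^ (J - 1) = t ^ J := by
        rw [← pow_succ', Nat.sub_add_cancel hJ]
      rw [Nat.add_sub_cancel]
      push_cast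
      have : t * (J * t ^ (J - 1) * ‖z - w‖) = J * (t * t ^ (J - 1)) * ‖z - w‖ := by ring
      rw [this, e2]
      linarith

theorem zE_lip_aux {n : ℕ} (hn : 2 ≤ n) (a : ℝ) {x y : R3} (h : ‖x‖ ≤ ‖y‖) :
    ‖zE n a x - zE n a y‖ ≤ 2 * ((n : ℝ) ^ (n - 2) * (n - 1)!) * ‖x - y‖ := by
  have hn' : (0 : ℝ) < n := by positivity
  set J := n - 1 with hJ
  have hJ1 : 1 ≤ J := by omega
  have hfac : (J ! : ℝ) = J * (J - 1)! := by
    rw [← Nat.mul_factorial_pred (by omega : J ≠ 0)]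
    push_cast
    ring
  have hn2 : n - 2 = J - 1 := by omega
  have e : zE n a x - zE n a y = ((zet a x) ^ J - (zet a y) ^ J) * (Real.exp (-‖y‖ / n) : ℂ) +
      (zet a x) ^ J * ((Real.exp (-‖x‖ / n) - Real.exp (-‖y‖ / n) : ℝ) : ℂ) := by
    unfold zE
    push_cast
    ring
  rw [e]
  refine (norm_add_le _ _).trans ?_
  rw [norm_mul, norm_mul, Complex.norm_real, Complex.norm_real,
    Real.norm_of_nonneg (Real.exp_pos _).le, norm_pow]
  have h1 : ‖(zet a x) ^ J - (zet a y) ^ J‖ * Real.exp (-‖y‖ / n) ≤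
      ((n : ℝ) ^ (n - 2) * J !) * ‖x - y‖ := by
    have h2 := pow_sub_pow_norm_le (zet a x) (zet a y) ‖y‖ ((norm_zet_le a x).trans h)
      (norm_zet_le a y) J
    rw [zet_sub] at h2
    have h3 : ‖(zet a x) ^ J - (zet a y) ^ J‖ ≤ J * ‖y‖ ^ (J - 1) * ‖x - y‖ :=
      h2.trans (mul_le_mul_of_nonneg_left (norm_zet_le a _) (by positivity))
    have h4 := pow_exp_le (by omega : 0 < n) (norm_nonneg y) (J - 1)
    calc _ ≤ (J * ‖y‖ ^ (J - 1) * ‖x - y‖) * Real.exp (-‖y‖ / n) :=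
          mul_le_mul_of_nonneg_right h3 (Real.exp_pos _).le
      _ = J * (‖y‖ ^ (J - 1) * Real.exp (-‖y‖ / n)) * ‖x - y‖ := by ring
      _ ≤ J * ((n : ℝ) ^ (J - 1) * (J - 1)!) * ‖x - y‖ := by gcongr
      _ = _ := by rw [hfac, hn2]; ring
  have h5 : ‖zet a x‖ ^ J * ‖Real.exp (-‖x‖ / n) - Real.exp (-‖y‖ / n)‖ ≤
      ((n : ℝ) ^ (n - 2) * J !) * ‖x - y‖ := by
    have hst : ‖y‖ - ‖x‖ ≤ ‖x - y‖ := by
      rw [norm_sub_rev]
      exact norm_sub_norm_le y x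
    have h6 : ‖Real.exp (-‖x‖ / n) - Real.exp (-‖y‖ / n)‖ ≤
        Real.exp (-‖x‖ / n) * (‖x - y‖ / n) := by
      rw [Real.norm_of_nonneg]
      · have h7 : Real.exp (-‖y‖ / n) = Real.exp (-‖x‖ / n) * Real.exp (-((‖y‖ - ‖x‖) / n)) := by
          rw [← Real.exp_add]
          congr 1
          ring
        rw [h7]
        have h8 := Real.add_one_le_exp (-((‖y‖ - ‖x‖) / n))
        have h9 : (‖y‖ - ‖x‖) / n ≤ ‖x - y‖ / n := by gcongr
        have h10 := Real.exp_pos (-‖x‖ / n)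
        nlinarith
      · rw [sub_nonneg]
        apply Real.exp_le_exp.2
        rw [neg_div, neg_div]
        exact neg_le_neg (by gcongr)
    calc _ ≤ ‖x‖ ^ J * (Real.exp (-‖x‖ / n) * (‖x - y‖ / n)) := by
          gcongr
          exact norm_zet_le a x
      _ = (‖x‖ ^ J * Real.exp (-‖x‖ / n)) * (‖x - y‖ / n) := by ring
      _ ≤ ((n : ℝ) ^ J * J !) * (‖x - y‖ / n) :=
          mul_le_mul_of_nonneg_right (pow_exp_le (by omega) (norm_nonneg x) J) (by positivity)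
      _ = _ := by
          rw [hn2, show (n : ℝ) ^ J = (n : ℝ) ^ (J - 1) * n by
            rw [← pow_succ, Nat.sub_add_cancel hJ1]]
          field_simp
  linarith

theorem zE_lip {n : ℕ} (hn : 2 ≤ n) (a : ℝ) (x y : R3) :
    ‖zE n a x - zE n a y‖ ≤ 2 * ((n : ℝ) ^ (n - 2) * (n - 1)!) * ‖x - y‖ := by
  rcases le_total ‖x‖ ‖y‖ with h | h
  · exact zE_lip_aux hn a h
  · rw [norm_sub_rev, norm_sub_rev x y]
    exact zE_lip_aux hn a h

theorem cn_sq (n : ℕ) : cn n ^ 2 = (2 / Real.pi) / ((n ! : ℝ) * (n : ℝ) ^ n) ^ 2 := by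
  unfold cn
  rw [div_pow, Real.sq_sqrt (by positivity)]

theorem cn_pos {n : ℕ} (hn : 0 < n) : 0 < cn n := by
  have hn' : (0 : ℝ) < n := by exact_mod_cast hn
  unfold cn
  positivity

theorem two_div_pi_le : 2 / Real.pi ≤ 1 := by
  rw [div_le_one Real.pi_pos]
  exact Real.two_le_pi

theorem cn_mul_le {n : ℕ} (hn : 2 ≤ n) : cn n * ((n : ℝ) ^ (n - 1) * (n - 1)!) ≤ 1 := by
  have hn' : (1 : ℝ) ≤ n := by exact_mod_cast (by omega : 1 ≤ n)
  have h1 : √(2 / Real.pi) ≤ 1 := by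
    rw [Real.sqrt_le_one]
    exact two_div_pi_le
  unfold cn
  rw [div_mul_eq_mul_div, div_le_one (by positivity)]
  have h2 : (n ! : ℝ) = n * (n - 1)! := by
    rw [← Nat.mul_factorial_pred (by omega : n ≠ 0)]
    push_cast
    ring
  have h3 : (n : ℝ) ^ n = n ^ (n - 1) * n := by
    rw [← pow_succ, Nat.sub_add_cancel (by omega)]
  have h4 : (0 : ℝ) < n ^ (n - 1) * (n - 1)! := by positivity
  calc √(2 / Real.pi) * ((n : ℝ) ^ (n - 1) * (n - 1)!) ≤ 1 * ((n : ℝ) ^ (n - 1) * (n - 1)!) := by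
        gcongr
    _ ≤ (n * n) * ((n : ℝ) ^ (n - 1) * (n - 1)!) := by
        gcongr
        nlinarith
    _ = _ := by rw [h2, h3]; ring

theorem cn_mul_le' {n : ℕ} (hn : 2 ≤ n) : cn n * ((n : ℝ) ^ (n - 2) * (n - 1)!) ≤ 1 := by
  refine le_trans ?_ (cn_mul_le hn)
  have hn' : (1 : ℝ) ≤ n := by exact_mod_cast (by omega : 1 ≤ n)
  have := cn_pos (by omega : 0 < n)
  have h2 : (n : ℝ) ^ (n - 2) ≤ (n : ℝ) ^ (n - 1) := pow_le_pow_right₀ hn' (by omega)
  gcongr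

theorem abs_ringC_le {n : ℕ} (hn : 2 ≤ n) (a : ℝ) (x : R3) : |ringC n a x| ≤ 1 := by
  rw [ringC_eq, abs_mul, abs_of_pos (cn_pos (by omega))]
  refine le_trans ?_ (cn_mul_le hn)
  have := cn_pos (by omega : 0 < n)
  gcongr
  exact (Complex.abs_re_le_norm _).trans (norm_zE_le (by omega) a x)

theorem ringC_lip {n : ℕ} (hn : 2 ≤ n) (a : ℝ) (x y : R3) :
    |ringC n a x - ringC n a y| ≤ 2 * ‖x - y‖ := by
  rw [ringC_eq, ringC_eq, ← mul_sub, abs_mul, abs_of_pos (cn_pos (by omega)), ← Complex.sub_re]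
  have h1 := (Complex.abs_re_le_norm (zE n a x - zE n a y)).trans (zE_lip hn a x y)
  have h2 := cn_pos (by omega : 0 < n)
  calc cn n * |(zE n a x - zE n a y).re| ≤
        cn n * (2 * ((n : ℝ) ^ (n - 2) * (n - 1)!) * ‖x - y‖) := by gcongr
    _ = 2 * (cn n * ((n : ℝ) ^ (n - 2) * (n - 1)!)) * ‖x - y‖ := by ring
    _ ≤ 2 * 1 * ‖x - y‖ := by gcongr; exact cn_mul_le' hn
    _ = _ := by ring

theorem continuous_ringC {n : ℕ} (hn : 2 ≤ n) (a : ℝ) : Continuous (ringC n a) := by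
  have : LipschitzWith 2 (ringC n a) := LipschitzWith.of_dist_le_mul fun x y => by
    rw [Real.dist_eq, dist_eq_norm]
    exact_mod_cast ringC_lip hn a x y
  exact this.continuous

theorem ringC_sq_le {n : ℕ} (a : ℝ) (x : R3) :
    ringC n a x ^ 2 ≤ cn n ^ 2 * (‖x‖ ^ (2 * (n - 1)) * Real.exp (-(2 / n) * ‖x‖)) := by
  have h1 : |(zE n a x).re| ≤ ‖x‖ ^ (n - 1) * Real.exp (-‖x‖ / n) := by
    refine (Complex.abs_re_le_norm _).trans ?_
    unfold zE
    rw [norm_mul, norm_pow, Complex.norm_real, Real.norm_of_nonneg (Real.exp_pos _).le]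
    gcongr
    exact norm_zet_le a x
  rw [ringC_eq, mul_pow, ← sq_abs (zE n a x).re]
  have h2 : ‖x‖ ^ (2 * (n - 1)) * Real.exp (-(2 / n) * ‖x‖) =
      (‖x‖ ^ (n - 1) * Real.exp (-‖x‖ / n)) ^ 2 := by
    rw [mul_pow, ← pow_mul, mul_comm (n - 1) 2, ← Real.exp_nat_mul]
    congr 2
    push_cast
    ring
  rw [h2]
  gcongr

/-- the moments of the density -/
theorem moment {n : ℕ} (hn : 2 ≤ n) (k : ℕ) :
    cn n ^ 2 * ∫ x : R3, ‖x‖ ^ (2 * (n - 1) + k) * Real.exp (-(2 / n) * ‖x‖) ≤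
      8 * ((2 * n + k : ℕ) : ℝ) ^ k * (n : ℝ) ^ (k + 1) := by
  have hn' : (0 : ℝ) < n := by positivity
  rw [integral_pow_exp _ (by positivity : (0 : ℝ) < 2 / n), cn_sq]
  have e1 : 2 * (n - 1) + k + 2 = 2 * n + k := by omega
  have e2 : 2 * (n - 1) + k + 3 = 2 * n + k + 1 := by omega
  rw [e1, e2]
  have h1 : ((2 * n + k)! : ℝ) ≤ ((2 * n)! : ℝ) * ((2 * n + k : ℕ) : ℝ) ^ k := by
    have : (2 * n + k)! ≤ (2 * n)! * (2 * n + k) ^ k := by
      induction k with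
      | zero => simp
      | succ k ih =>
        rw [← Nat.add_assoc, Nat.factorial_succ, pow_succ]
        calc (2 * n + k + 1) * (2 * n + k)! ≤ (2 * n + k + 1) * ((2 * n)! * (2 * n + k) ^ k) := by
              gcongr
              exact ih (by omega) (by omega)
          _ ≤ (2 * n + k + 1) * ((2 * n)! * (2 * n + k + 1) ^ k) :=
              Nat.mul_le_mul_left _ (Nat.mul_le_mul_left _ (Nat.pow_le_pow_left (by omega) k))
          _ = _ := by ring
    exact_mod_cast this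
  have h2 : ((2 * n)! : ℝ) ≤ 4 ^ n * ((n ! : ℝ)) ^ 2 := by
    have h3 := Nat.choose_le_two_pow (2 * n) n
    have h4 := Nat.choose_mul_factorial_mul_factorial (by omega : n ≤ 2 * n)
    rw [show 2 * n - n = n by omega] at h4
    have h5 : (2 * n)! ≤ 2 ^ (2 * n) * n ! * n ! := by
      rw [← h4]
      gcongr
    have h6 : ((2 * n)! : ℝ) ≤ 2 ^ (2 * n) * n ! * n ! := by exact_mod_cast h5
    rw [pow_mul] at h6
    norm_num at h6
    linarith
  have hpi := Real.pi_pos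
  have e3 : 2 / Real.pi / ((n ! : ℝ) * (n : ℝ) ^ n) ^ 2 *
      (4 * Real.pi * ((2 * n + k)! : ℝ) / (2 / n) ^ (2 * n + k + 1)) =
      8 * ((2 * n + k)! : ℝ) * (n : ℝ) ^ (k + 1) / ((n ! : ℝ) ^ 2 * 4 ^ n * 2 ^ (k + 1)) := by
    rw [div_pow, show 2 * n + k + 1 = n + n + (k + 1) by omega, pow_add, pow_add, pow_add, pow_add,
      show (4 : ℝ) ^ n = 2 ^ n * 2 ^ n by rw [← mul_pow]; norm_num]
    field_simp
    ring
  rw [e3, div_le_iff₀ (by positivity)]
  have h7 : (1 : ℝ) ≤ 2 ^ (k + 1) := one_le_pow₀ (by norm_num)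
  calc 8 * ((2 * n + k)! : ℝ) * (n : ℝ) ^ (k + 1)
      ≤ 8 * ((4 ^ n * ((n ! : ℝ)) ^ 2) * ((2 * n + k : ℕ) : ℝ) ^ k) * (n : ℝ) ^ (k + 1) := by
        gcongr
        exact h1.trans (by gcongr)
    _ = 8 * ((2 * n + k : ℕ) : ℝ) ^ k * (n : ℝ) ^ (k + 1) * ((n ! : ℝ) ^ 2 * 4 ^ n) * 1 := by ring
    _ ≤ 8 * ((2 * n + k : ℕ) : ℝ) ^ k * (n : ℝ) ^ (k + 1) * ((n ! : ℝ) ^ 2 * 4 ^ n) *
        2 ^ (k + 1) := by gcongr
    _ = _ := by ring

theorem integrable_ringC_sq {n : ℕ} (hn : 2 ≤ n) (a : ℝ) :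
    Integrable fun x => ringC n a x ^ 2 := by
  refine ((integrable_pow_exp (2 * (n - 1)) (by positivity : (0 : ℝ) < 2 / n)).const_mul
    (cn n ^ 2)).mono' ((continuous_ringC hn a).pow 2).aestronglyMeasurable
    (Filter.Eventually.of_forall fun x => ?_)
  rw [Real.norm_of_nonneg (sq_nonneg _)]
  exact ringC_sq_le a x

theorem moment_ringC {n : ℕ} (hn : 2 ≤ n) (a : ℝ) (k : ℕ) :
    (Integrable fun x : R3 => ‖x‖ ^ k * ringC n a x ^ 2) ∧
    ∫ x : R3, ‖x‖ ^ k * ringC n a x ^ 2 ≤ 8 * ((2 * n + k : ℕ) : ℝ) ^ k * (n : ℝ) ^ (k + 1) := by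
  have hI := (integrable_pow_exp (2 * (n - 1) + k) (by positivity : (0 : ℝ) < 2 / n)).const_mul
    (cn n ^ 2)
  have hle : ∀ x : R3, ‖x‖ ^ k * ringC n a x ^ 2 ≤
      cn n ^ 2 * (‖x‖ ^ (2 * (n - 1) + k) * Real.exp (-(2 / n) * ‖x‖)) := by
    intro x
    calc ‖x‖ ^ k * ringC n a x ^ 2 ≤
          ‖x‖ ^ k * (cn n ^ 2 * (‖x‖ ^ (2 * (n - 1)) * Real.exp (-(2 / n) * ‖x‖))) :=
          mul_le_mul_of_nonneg_left (ringC_sq_le a x) (by positivity)
      _ = _ := by rw [pow_add]; ring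
  have hi : Integrable fun x : R3 => ‖x‖ ^ k * ringC n a x ^ 2 := by
    refine hI.mono' (((continuous_norm.pow k).mul
      ((continuous_ringC hn a).pow 2)).aestronglyMeasurable)
      (Filter.Eventually.of_forall fun x => ?_)
    rw [Real.norm_of_nonneg (by positivity)]
    exact hle x
  refine ⟨hi, ?_⟩
  calc ∫ x : R3, ‖x‖ ^ k * ringC n a x ^ 2 ≤
        ∫ x : R3, cn n ^ 2 * (‖x‖ ^ (2 * (n - 1) + k) * Real.exp (-(2 / n) * ‖x‖)) :=
        integral_mono hi hI hle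
    _ = cn n ^ 2 * ∫ x : R3, ‖x‖ ^ (2 * (n - 1) + k) * Real.exp (-(2 / n) * ‖x‖) :=
        integral_const_mul _ _
    _ ≤ _ := moment hn k

theorem norm_ge_of_notMem_cube {A : ℝ} {x : R3} (hx : x ∉ cube A) : A ≤ ‖x‖ := by
  simp only [cube, mem_ofPred_eq, not_forall] at hx
  obtain ⟨i, hi⟩ := hx
  have h1 : |x i| ≤ ‖x‖ := by
    have := PiLp.norm_apply_le x i
    rwa [Real.norm_eq_abs] at this
  simp only [mem_Ico, not_and_or, not_le, not_lt] at hi
  rcases hi with h | h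
  · have := neg_abs_le (x i)
    linarith
  · have := le_abs_self (x i)
    linarith

/-- **The data of the density of a ring.** -/
theorem rf_ringC {n : ℕ} (hn : 2 ≤ n) (a : ℝ) {A : ℕ} (hA : 0 < A) :
    RF (fun x => ringC n a x ^ 2) 1 4 (8 * n)
      (8 * ((2 * n + 6 : ℕ) : ℝ) ^ 6 * (n : ℝ) ^ 7 / (A : ℝ) ^ 6) A where
  int := integrable_ringC_sq hn a
  bd := fun x => by
    rw [abs_of_nonneg (sq_nonneg _), sq_le_one_iff_abs_le_one]
    exact abs_ringC_le hn a x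
  lip := fun x y => by
    have e : ringC n a x ^ 2 - ringC n a y ^ 2 =
        (ringC n a x - ringC n a y) * (ringC n a x + ringC n a y) := by ring
    rw [e, abs_mul]
    have h1 := ringC_lip hn a x y
    have h2 : |ringC n a x + ringC n a y| ≤ 2 :=
      (abs_add_le _ _).trans (by linarith [abs_ringC_le hn a x, abs_ringC_le hn a y])
    calc _ ≤ (2 * ‖x - y‖) * 2 := mul_le_mul h1 h2 (abs_nonneg _) (by positivity)
      _ = _ := by ring
  mass := by
    have h := (moment_ringC hn a 0).2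
    simp only [pow_zero, one_mul, mul_one, zero_add, pow_one] at h
    have e : ∀ x, |ringC n a x ^ 2| = ringC n a x ^ 2 := fun x => abs_of_nonneg (sq_nonneg _)
    simp only [e]
    exact h
  tail := by
    have hA' : (0 : ℝ) < A := by exact_mod_cast hA
    have h := moment_ringC hn a 6
    calc ∫ x in (cube (A : ℝ))ᶜ, |ringC n a x ^ 2|
        ≤ ∫ x in (cube (A : ℝ))ᶜ, ‖x‖ ^ 6 * ringC n a x ^ 2 / (A : ℝ) ^ 6 := by
          refine setIntegral_mono_on (integrable_ringC_sq hn a).abs.integrableOn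
            (h.1.div_const _).integrableOn (measurableSet_cube _).compl fun x hx => ?_
          rw [abs_of_nonneg (sq_nonneg _), le_div_iff₀ (by positivity), mul_comm]
          have := norm_ge_of_notMem_cube hx
          gcongr
      _ ≤ ∫ x : R3, ‖x‖ ^ 6 * ringC n a x ^ 2 / (A : ℝ) ^ 6 :=
          setIntegral_le_integral (h.1.div_const _)
            (Filter.Eventually.of_forall fun x => by positivity)
      _ = (∫ x : R3, ‖x‖ ^ 6 * ringC n a x ^ 2) / (A : ℝ) ^ 6 := integral_div _ _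
      _ ≤ _ := by
          have := h.2
          gcongr

end

end Vale.Agent.P370.H207
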