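import Vale.Agent.P370.H207.Trig
import Vale.Agent.P370.H855.Weak
import Vale.Agent.P370.H115.RingDefs

/-!
The values of the ring orbitals at points with approximable coordinates are approximable in
polynomial time.
-/

namespace Vale.Agent.P370.H207

open Vale.Agent.Lib.PolyTime Function
open Vale.Agent.P370.H855 Vale.Agent.P370.H115
open Vale.Agent.P363.Stmt

variable {α β γ : Type*} [Enc α] [Enc β] [Enc γ]

/-- the point with the given coordinates -/
noncomputable def p3 (x y z : ℝ) : EuclideanSpace ℝ (Fin 3) := !₂[x, y, z]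

theorem norm_p3 (x y z : ℝ) : ‖p3 x y z‖ = √(x ^ 2 + y ^ 2 + z ^ 2) := by
  rw [p3, EuclideanSpace.norm_eq]
  simp [Fin.sum_univ_three]

theorem abs_le_norm_p3 (x y z : ℝ) : |x| ≤ ‖p3 x y z‖ ∧ |y| ≤ ‖p3 x y z‖ ∧ |z| ≤ ‖p3 x y z‖ := by
  rw [norm_p3]
  refine ⟨?_, ?_, ?_⟩ <;>
  · apply Real.abs_le_sqrt
    nlinarith [sq_nonneg x, sq_nonneg y, sq_nonneg z]

theorem PTR.norm {x y z : α → ℝ} (hx : PTR x) (hy : PTR y) (hz : PTR z) :
    PTR (fun a => ‖p3 (x a) (y a) (z a)‖) :=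
  (((hx.powConst 2).add (hy.powConst 2)).add (hz.powConst 2)).sqrt.congr fun _ =>
    (norm_p3 _ _ _).symm

/-- the normalisation constant -/
theorem PTR.cn {n : α → ℕ} (hn : PT ∅ n) (hnb : PBd n) : PTR (fun a => cn (n a)) := by
  have h1 : PTR (fun _ : α => (2 : ℝ) / Real.pi) :=
    ((PTR.constNat 2).div PTR.pi (PT.const 0) (PBd.const 0) (fun _ => by
      rw [pow_zero, div_one, abs_of_pos Real.pi_pos]
      linarith [Real.pi_gt_three])).congr fun _ => by push_cast; rfl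
  have h2 : PTR (fun a => ((1 : ℤ) : ℝ) / (((n a).factorial * n a ^ n a : ℕ) : ℝ)) :=
    PTR.ofFrac (PT.const 1) ((PT.factorial hn hnb).mul (hn.pow hn hnb))
  exact (h1.sqrt.mul h2).congr fun a => by
    unfold H115.cn
    push_cast
    ring

/-- `e^{-|x|/n}` -/
theorem PTR.expNorm {x y z : α → ℝ} (hx : PTR x) (hy : PTR y) (hz : PTR z) {n : α → ℕ}
    (hn : PT ∅ n) {B : α → ℕ} (hB : PT ∅ B) (hBb : PBd B)
    (hb : ∀ a, ‖p3 (x a) (y a) (z a)‖ ≤ B a) :
    PTR (fun a => Real.exp (-‖p3 (x a) (y a) (z a)‖ / n a)) := by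
  have h1 : PTR (fun a => ((1 : ℤ) : ℝ) / (n a : ℝ)) := PTR.ofFrac (PT.const 1) hn
  refine ((((PTR.norm hx hy hz).mul h1).neg).exp hB hBb fun a => ?_).congr fun a => ?_
  · rw [abs_neg, abs_mul, abs_of_nonneg (norm_nonneg _)]
    refine le_trans (mul_le_of_le_one_right (norm_nonneg _) ?_) (hb a)
    rw [Int.cast_one, abs_of_nonneg (by positivity)]
    rcases Nat.eq_zero_or_pos (n a) with h | h
    · simp [h]
    · rw [div_le_one (by exact_mod_cast h)]
      exact_mod_cast h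
  · congr 1
    push_cast
    ring

theorem zet_p3 (b x y z : ℝ) :
    zet b (p3 x y z) = ⟨z, -Real.sin b * x + Real.cos b * y⟩ := by
  unfold zet p3
  simp

/-- the value of the `cos` orbital -/
theorem PTR.ringC {x y z b : α → ℝ} (hx : PTR x) (hy : PTR y) (hz : PTR z) (hb : PTR b) {n : α → ℕ}
    (hn : PT ∅ n) (hnb : PBd n) {B : α → ℕ} (hB : PT ∅ B) (hBb : PBd B)
    (hB1 : ∀ a, ‖p3 (x a) (y a) (z a)‖ ≤ B a) (hB2 : ∀ a, |b a| ≤ B a) :
    PTR (fun a => ringC (n a) (b a) (p3 (x a) (y a) (z a))) := by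
  have hw : PTR (fun a => -Real.sin (b a) * x a + Real.cos (b a) * y a) :=
    ((PTR.sin hb hB hBb hB2).neg.mul hx).add ((PTR.cos hb hB hBb hB2).mul hy)
  have hJ : PT ∅ (fun a => n a - 1) := hn.sub (PT.const 1)
  have hJb : PBd (fun a => n a - 1) := hnb.mono fun _ => Nat.sub_le _ _
  refine (((PTR.cn hn hnb).mul (PTR.cpow_re hz hw hJ hJb)).mul
    (PTR.expNorm hx hy hz hn hB hBb hB1)).congr fun a => ?_
  unfold H115.ringC
  rw [zet_p3]

/-- the value of the `sin` orbital -/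
theorem PTR.ringS {x y z b : α → ℝ} (hx : PTR x) (hy : PTR y) (hz : PTR z) (hb : PTR b) {n : α → ℕ}
    (hn : PT ∅ n) (hnb : PBd n) {B : α → ℕ} (hB : PT ∅ B) (hBb : PBd B)
    (hB1 : ∀ a, ‖p3 (x a) (y a) (z a)‖ ≤ B a) (hB2 : ∀ a, |b a| ≤ B a) :
    PTR (fun a => ringS (n a) (b a) (p3 (x a) (y a) (z a))) := by
  have hw : PTR (fun a => -Real.sin (b a) * x a + Real.cos (b a) * y a) :=
    ((PTR.sin hb hB hBb hB2).neg.mul hx).add ((PTR.cos hb hB hBb hB2).mul hy)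
  have hJ : PT ∅ (fun a => n a - 1) := hn.sub (PT.const 1)
  have hJb : PBd (fun a => n a - 1) := hnb.mono fun _ => Nat.sub_le _ _
  refine (((PTR.cn hn hnb).mul (PTR.cpow_im hz hw hJ hJb)).mul
    (PTR.expNorm hx hy hz hn hB hBb hB1)).congr fun a => ?_
  unfold H115.ringS
  rw [zet_p3]

end Vale.Agent.P370.H207
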