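import Vale.Agent.P370.H855.Exp

/-!
Cosine, sine and powers of complex numbers for functions which can be approximated in polynomial
time.
-/

namespace Vale.Agent.P370.H207

open Vale.Agent.Lib.PolyTime Function
open Vale.Agent.P370.H855

variable {α β γ : Type*} [Enc α] [Enc β] [Enc γ]

/-- the real part of `I ^ k` -/
def cI (k : ℕ) : ℤ := if k % 4 = 0 then 1 else if k % 4 = 2 then -1 else 0

/-- the imaginary part of `I ^ k` -/
def sI (k : ℕ) : ℤ := if k % 4 = 1 then 1 else if k % 4 = 3 then -1 else 0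

theorem I_pow (k : ℕ) : (Complex.I ^ k : ℂ) = (cI k : ℂ) + (sI k : ℂ) * Complex.I := by
  have h : k = 4 * (k / 4) + k % 4 := by omega
  have h4 : k % 4 < 4 := Nat.mod_lt _ (by norm_num)
  have e : (Complex.I ^ k : ℂ) = Complex.I ^ (k % 4) := by
    conv_lhs => rw [h]
    rw [pow_add, pow_mul, Complex.I_pow_four, one_pow, one_mul]
  rw [e]
  unfold cI sI
  interval_cases hk : k % 4 <;> simp [pow_succ]

theorem PT_cI : PT ∅ cI := by
  have hm := PT.mod (PT.id (A := ∅) (α := ℕ)) (PT.const 4)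
  exact PT.ite (PT.eqNat hm (PT.const 0)) (PT.const 1)
    (PT.ite (PT.eqNat hm (PT.const 2)) (PT.const (-1)) (PT.const 0))

theorem PT_sI : PT ∅ sI := by
  have hm := PT.mod (PT.id (A := ∅) (α := ℕ)) (PT.const 4)
  exact PT.ite (PT.eqNat hm (PT.const 1)) (PT.const 1)
    (PT.ite (PT.eqNat hm (PT.const 3)) (PT.const (-1)) (PT.const 0))

/-- the Taylor polynomial of `e^{ix}` -/
theorem expI_taylor (x : ℝ) (N : ℕ) :
    ∑ j ∈ Finset.range N, ((x : ℂ) * Complex.I) ^ j / (j.factorial : ℂ) =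
      ((∑ j ∈ Finset.range N, x ^ j / (j.factorial : ℝ) * cI j : ℝ) : ℂ) +
      ((∑ j ∈ Finset.range N, x ^ j / (j.factorial : ℝ) * sI j : ℝ) : ℂ) * Complex.I := by
  push_cast
  rw [Finset.sum_mul, ← Finset.sum_add_distrib]
  refine Finset.sum_congr rfl fun j _ => ?_
  rw [mul_pow, I_pow]
  ring

theorem expI_taylor_err {x : ℝ} {C m : ℕ} (hC : 1 ≤ C) (hx : |x| ≤ C) :
    ‖Complex.exp ((x : ℂ) * Complex.I) -
      ∑ j ∈ Finset.range (2 * C + m), ((x : ℂ) * Complex.I) ^ j / (j.factorial : ℂ)‖ ≤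
      2 * (C : ℝ) ^ (2 * C) / 2 ^ m := by
  have hC' : (1 : ℝ) ≤ C := by exact_mod_cast hC
  have hn : ‖(x : ℂ) * Complex.I‖ = |x| := by simp
  have h1 := Complex.exp_bound' (x := (x : ℂ) * Complex.I) (n := 2 * C + m) (by
    rw [hn, div_le_iff₀ (by positivity)]
    push_cast
    have : (0 : ℝ) ≤ m := by positivity
    linarith)
  rw [hn] at h1
  refine h1.trans ?_
  have h3 : ((2 * C).factorial : ℝ) * (2 * C + 1) ^ m ≤ ((2 * C + m).factorial : ℝ) := by
    exact_mod_cast Nat.factorial_mul_pow_le_factorial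
  have h4 : (1 : ℝ) ≤ ((2 * C).factorial : ℝ) := by
    exact_mod_cast Nat.succ_le_of_lt (Nat.factorial_pos _)
  have h5 : (2 * (C : ℝ)) ^ m ≤ ((2 * C + m).factorial : ℝ) := by
    refine le_trans ?_ h3
    calc (2 * (C : ℝ)) ^ m ≤ (2 * C + 1) ^ m := by gcongr; linarith
      _ = 1 * (2 * C + 1) ^ m := by ring
      _ ≤ _ := by gcongr
  have h6 : |x| ^ (2 * C + m) ≤ (C : ℝ) ^ (2 * C + m) := by gcongr
  have hpos : (0 : ℝ) < (2 * (C : ℝ)) ^ m := by positivity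
  calc |x| ^ (2 * C + m) / ((2 * C + m).factorial : ℝ) * 2
      ≤ (C : ℝ) ^ (2 * C + m) / (2 * (C : ℝ)) ^ m * 2 := by gcongr
    _ = 2 * (C : ℝ) ^ (2 * C) / 2 ^ m := by
        rw [pow_add, mul_pow]
        field_simp

theorem cos_taylor_err {x : ℝ} {C m : ℕ} (hC : 1 ≤ C) (hx : |x| ≤ C) :
    |Real.cos x - ∑ j ∈ Finset.range (2 * C + m), x ^ j / (j.factorial : ℝ) * cI j| ≤
      2 * (C : ℝ) ^ (2 * C) / 2 ^ m := by
  have h := expI_taylor_err (m := m) hC hx
  rw [expI_taylor] at h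
  refine le_trans ?_ h
  have h2 := Complex.abs_re_le_norm (Complex.exp ((x : ℂ) * Complex.I) -
    (((∑ j ∈ Finset.range (2 * C + m), x ^ j / (j.factorial : ℝ) * cI j : ℝ) : ℂ) +
      ((∑ j ∈ Finset.range (2 * C + m), x ^ j / (j.factorial : ℝ) * sI j : ℝ) : ℂ) * Complex.I))
  rw [Complex.sub_re, Complex.exp_ofReal_mul_I_re, Complex.add_re, Complex.ofReal_re,
    Complex.re_ofReal_mul, Complex.I_re, mul_zero, add_zero] at h2
  exact h2

theorem sin_taylor_err {x : ℝ} {C m : ℕ} (hC : 1 ≤ C) (hx : |x| ≤ C) :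
    |Real.sin x - ∑ j ∈ Finset.range (2 * C + m), x ^ j / (j.factorial : ℝ) * sI j| ≤
      2 * (C : ℝ) ^ (2 * C) / 2 ^ m := by
  have h := expI_taylor_err (m := m) hC hx
  rw [expI_taylor] at h
  refine le_trans ?_ h
  have h2 := Complex.abs_im_le_norm (Complex.exp ((x : ℂ) * Complex.I) -
    (((∑ j ∈ Finset.range (2 * C + m), x ^ j / (j.factorial : ℝ) * cI j : ℝ) : ℂ) +
      ((∑ j ∈ Finset.range (2 * C + m), x ^ j / (j.factorial : ℝ) * sI j : ℝ) : ℂ) * Complex.I))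
  rw [Complex.sub_im, Complex.exp_ofReal_mul_I_im, Complex.add_im, Complex.ofReal_im,
    Complex.im_ofReal_mul, Complex.I_im, mul_one, zero_add] at h2
  exact h2

/-- Functions given by Taylor series with integer coefficients bounded by one. -/
theorem PTR.taylor {f : α → ℝ} (hf : PTR f) {B : α → ℕ} (hB : PT ∅ B) (hBb : PBd B)
    (h : ∀ a, |f a| ≤ B a) {c : ℕ → ℤ} (hc : PT ∅ c) {g : ℝ → ℝ}
    (hg : ∀ {x : ℝ} {C m : ℕ}, 1 ≤ C → |x| ≤ C →
      |g x - ∑ j ∈ Finset.range (2 * C + m), x ^ j / (j.factorial : ℝ) * c j| ≤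
        2 * (C : ℝ) ^ (2 * C) / 2 ^ m) : PTR (fun a => g (f a)) := by
  set C : α → ℕ := fun a => B a + 1 with hCdef
  have hC : PT ∅ C := hB.add (PT.const 1)
  have hCb : PBd C := hBb.add (PBd.const 1)
  -- number of additional terms
  set m : α → ℕ := fun a => 1 + Nat.size (C a) * (2 * C a) with hmdef
  have hm : PT ∅ m := (PT.const 1).add (hC.natSize.mul ((PT.const 2).mul hC))
  have hmb : PBd m := (PBd.const 1).add ((hC.pbd.mono fun a => by rw [esize_nat]).mul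
    ((PBd.const 2).mul hCb))
  refine PTR.limit (F := fun a k => ∑ j ∈ Finset.range (2 * C a + (k + m a)),
    f a ^ j / (j.factorial : ℝ) * c j) ?_ fun a k => ?_
  · refine PTR.sumUn (α := α × Un) (n := fun p => 2 * C p.1 + (p.2.v + m p.1))
      (F := fun p j => f p.1 ^ j / (j.factorial : ℝ) * c j) ?_ ?_ ?_
    · exact ((PT.const 2).mul (hC.comp PT.fst')).add (PT_precv.add (hm.comp PT.fst'))
    · exact ((PBd.const 2).mul (hCb.comp (A := ∅) PT.fst')).add
        (PBd_precv.add (hmb.comp (A := ∅) PT.fst'))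
    · have h1 : PTR (fun q : (α × Un) × Un => f q.1.1 ^ q.2.v) :=
        (hf.comp PT.fst'.fst).pow PT_precv PBd_precv
      have h2 : PTR (fun q : (α × Un) × Un => ((c q.2.v : ℤ) : ℝ) / ((q.2.v.factorial : ℕ) : ℝ)) :=
        PTR.ofFrac (hc.comp PT_precv) (PT.factorial PT_precv PBd_precv)
      exact (h1.mul h2).congr fun q => by ring
  · refine (hg (C := C a) (m := k + m a) (by simp [hCdef])
      ((h a).trans (by simp [hCdef]))).trans ?_
    have h1 : ((C a : ℕ) : ℝ) ≤ 2 ^ Nat.size (C a) := by exact_mod_cast (Nat.lt_size_self _).le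
    have h2 : ((C a : ℕ) : ℝ) ^ (2 * C a) ≤ 2 ^ (Nat.size (C a) * (2 * C a)) := by
      rw [pow_mul (2 : ℝ)]
      gcongr
    have e : (2 : ℝ) ^ (k + m a) = 2 ^ k * (2 * 2 ^ (Nat.size (C a) * (2 * C a))) := by
      rw [hmdef, pow_add, pow_add, pow_one]
    rw [e]
    calc 2 * (C a : ℝ) ^ (2 * C a) / (2 ^ k * (2 * 2 ^ (Nat.size (C a) * (2 * C a))))
        ≤ 2 * 2 ^ (Nat.size (C a) * (2 * C a)) / (2 ^ k * (2 * 2 ^ (Nat.size (C a) * (2 * C a)))) := by
          gcongr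
      _ = 1 / 2 ^ k := by field_simp

/-- The cosine of a polynomially bounded argument. -/
theorem PTR.cos {f : α → ℝ} (hf : PTR f) {B : α → ℕ} (hB : PT ∅ B) (hBb : PBd B)
    (h : ∀ a, |f a| ≤ B a) : PTR (fun a => Real.cos (f a)) :=
  PTR.taylor hf hB hBb h PT_cI fun hC hx => cos_taylor_err hC hx

/-- The sine of a polynomially bounded argument. -/
theorem PTR.sin {f : α → ℝ} (hf : PTR f) {B : α → ℕ} (hB : PT ∅ B) (hBb : PBd B)
    (h : ∀ a, |f a| ≤ B a) : PTR (fun a => Real.sin (f a)) :=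
  PTR.taylor hf hB hBb h PT_sI fun hC hx => sin_taylor_err hC hx

/-! ### Powers of complex numbers -/

theorem cpow_eq (x y : ℝ) (J : ℕ) :
    ((⟨x, y⟩ : ℂ)) ^ J =
      ((∑ l ∈ Finset.range (J + 1), x ^ l * y ^ (J - l) *
        (((cI (J - l) * (J.factorial : ℕ) : ℤ) : ℝ) / ((l.factorial * (J - l).factorial : ℕ) : ℝ)) : ℝ) : ℂ) +
      ((∑ l ∈ Finset.range (J + 1), x ^ l * y ^ (J - l) *
        (((sI (J - l) * (J.factorial : ℕ) : ℤ) : ℝ) / ((l.factorial * (J - l).factorial : ℕ) : ℝ)) : ℝ) : ℂ)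
        * Complex.I := by
  have e : (⟨x, y⟩ : ℂ) = (x : ℂ) + (y : ℂ) * Complex.I := by
    rw [Complex.mk_eq_add_mul_I]
  rw [e, add_pow]
  push_cast
  rw [Finset.sum_mul, ← Finset.sum_add_distrib]
  refine Finset.sum_congr rfl fun l hl => ?_
  have hl' : l ≤ J := by
    have := Finset.mem_range.1 hl
    omega
  rw [mul_pow, I_pow, Nat.cast_choose ℂ hl']
  ring

theorem cpow_re (x y : ℝ) (J : ℕ) :
    (((⟨x, y⟩ : ℂ)) ^ J).re = ∑ l ∈ Finset.range (J + 1), x ^ l * y ^ (J - l) *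
      (((cI (J - l) * (J.factorial : ℕ) : ℤ) : ℝ) / ((l.factorial * (J - l).factorial : ℕ) : ℝ)) := by
  rw [cpow_eq, Complex.add_re, Complex.ofReal_re, Complex.re_ofReal_mul, Complex.I_re, mul_zero,
    add_zero]

theorem cpow_im (x y : ℝ) (J : ℕ) :
    (((⟨x, y⟩ : ℂ)) ^ J).im = ∑ l ∈ Finset.range (J + 1), x ^ l * y ^ (J - l) *
      (((sI (J - l) * (J.factorial : ℕ) : ℤ) : ℝ) / ((l.factorial * (J - l).factorial : ℕ) : ℝ)) := by
  rw [cpow_eq, Complex.add_im, Complex.ofReal_im, Complex.im_ofReal_mul, Complex.I_im, mul_one,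
    zero_add]

theorem PTR.cpow_aux {x y : α → ℝ} (hx : PTR x) (hy : PTR y) {J : α → ℕ} (hJ : PT ∅ J)
    (hJb : PBd J) {c : ℕ → ℤ} (hc : PT ∅ c) :
    PTR (fun a => ∑ l ∈ Finset.range (J a + 1), x a ^ l * y a ^ (J a - l) *
      (((c (J a - l) * ((J a).factorial : ℕ) : ℤ) : ℝ) /
        ((l.factorial * (J a - l).factorial : ℕ) : ℝ))) := by
  refine PTR.sumUn (hJ.add (PT.const 1)) (hJb.add (PBd.const 1)) (F := fun a l =>
    x a ^ l * y a ^ (J a - l) * (((c (J a - l) * ((J a).factorial : ℕ) : ℤ) : ℝ) /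
        ((l.factorial * (J a - l).factorial : ℕ) : ℝ))) ?_
  have hJ' : PT ∅ (fun p : α × Un => J p.1) := hJ.comp PT.fst'
  have hJb' : PBd (fun p : α × Un => J p.1) := hJb.comp (A := ∅) PT.fst'
  have hs : PT ∅ (fun p : α × Un => J p.1 - p.2.v) := hJ'.sub PT_precv
  have hsb : PBd (fun p : α × Un => J p.1 - p.2.v) := hJb'.mono fun _ => Nat.sub_le _ _
  refine PTR.mul (PTR.mul ((hx.comp PT.fst').pow PT_precv PBd_precv)
    ((hy.comp PT.fst').pow hs hsb)) ?_
  exact PTR.ofFrac (PT.intMul (hc.comp hs) (PT.natCast (PT.factorial hJ' hJb')))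
    ((PT.factorial PT_precv PBd_precv).mul (PT.factorial hs hsb))

/-- The real part of the power of a complex number. -/
theorem PTR.cpow_re {x y : α → ℝ} (hx : PTR x) (hy : PTR y) {J : α → ℕ} (hJ : PT ∅ J)
    (hJb : PBd J) : PTR (fun a => (((⟨x a, y a⟩ : ℂ)) ^ J a).re) :=
  (PTR.cpow_aux hx hy hJ hJb PT_cI).congr fun _ => (H207.cpow_re _ _ _).symm

/-- The imaginary part of the power of a complex number. -/
theorem PTR.cpow_im {x y : α → ℝ} (hx : PTR x) (hy : PTR y) {J : α → ℕ} (hJ : PT ∅ J)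
    (hJb : PBd J) : PTR (fun a => (((⟨x a, y a⟩ : ℂ)) ^ J a).im) :=
  (PTR.cpow_aux hx hy hJ hJb PT_sI).congr fun _ => (H207.cpow_im _ _ _).symm

end Vale.Agent.P370.H207
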